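import Mathlib

/-!
# P281, T-U, block U6 (helper152), part 2: the leaves of the Gauss map are flat.
-/

open Set Filter Metric
open scoped Topology ContDiff

noncomputable section

namespace Vale.Agent.P281.H152.U

variable {E : Type*} [NormedAddCommGroup E] [NormedSpace ℂ E] [FiniteDimensional ℂ E]

/-- The common kernel of the derivatives of the maps `K : E → E*`, `K ∈ ℱ`. -/
def N (ℱ : Set (E → (E →L[ℂ] ℂ))) (y : E) : Submodule ℂ E where
  carrier := {v | ∀ K ∈ ℱ, fderiv ℂ K y v = 0}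
  add_mem' := by
    intro a b ha hb K hK
    rw [map_add, ha K hK, hb K hK, add_zero]
  zero_mem' := fun K _ => map_zero _
  smul_mem' := by
    intro c a ha K hK
    rw [map_smul, ha K hK]
    exact smul_zero (M := ℂ) (A := E →L[ℂ] ℂ) c

omit [FiniteDimensional ℂ E] in
theorem mem_N {ℱ : Set (E → (E →L[ℂ] ℂ))} {y v : E} :
    v ∈ N ℱ y ↔ ∀ K ∈ ℱ, fderiv ℂ K y v = 0 := Iff.rfl

omit [FiniteDimensional ℂ E] in
/-- linearly independent functionals define a surjective map -/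
theorem surj_of_indep {κ : Type*} [Fintype κ] [DecidableEq κ] {ℓ : κ → (E →ₗ[ℂ] ℂ)}
    (h : LinearIndependent ℂ ℓ) : Function.Surjective (LinearMap.pi ℓ : E →ₗ[ℂ] (κ → ℂ)) := by
  by_contra hcon
  have h1 : LinearMap.range (LinearMap.pi ℓ : E →ₗ[ℂ] (κ → ℂ)) < ⊤ := by
    rw [lt_top_iff_ne_top, Ne, LinearMap.range_eq_top]
    exact hcon
  obtain ⟨f, hf0, hf⟩ := Submodule.exists_le_ker_of_lt_top _ h1
  refine hf0 ?_
  have h2 : ∀ x : κ → ℂ, f x = ∑ k, x k * f (Pi.single k 1) := by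
    intro x
    conv_lhs => rw [← Finset.univ_sum_single x]
    rw [map_sum]
    refine Finset.sum_congr rfl fun k _ => ?_
    have h3 : (Pi.single k (x k) : κ → ℂ) = x k • Pi.single k 1 := by
      rw [← Pi.single_smul', smul_eq_mul, mul_one]
    rw [h3, map_smul, smul_eq_mul]
  have h4 : ∑ k, f (Pi.single k 1) • ℓ k = 0 := by
    ext v
    have h5 : f (LinearMap.pi ℓ v) = 0 := hf ⟨v, rfl⟩
    rw [h2] at h5
    rw [LinearMap.sum_apply, LinearMap.zero_apply, ← h5]
    refine Finset.sum_congr rfl fun k _ => ?_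
    rw [LinearMap.smul_apply, smul_eq_mul, LinearMap.pi_apply, mul_comm]
  have h6 := Fintype.linearIndependent_iff.1 h _ h4
  refine LinearMap.ext fun x => ?_
  rw [h2 x, LinearMap.zero_apply]
  exact Finset.sum_eq_zero fun k _ => by rw [h6 k, mul_zero]

/-- the functional `v ↦ fderiv K y v w` -/
def fl (K : E → (E →L[ℂ] ℂ)) (w y : E) : E →ₗ[ℂ] ℂ :=
  ((ContinuousLinearMap.apply ℂ ℂ w).comp (fderiv ℂ K y) : E →L[ℂ] ℂ)

omit [FiniteDimensional ℂ E] in
theorem fl_apply (K : E → (E →L[ℂ] ℂ)) (w y v : E) : fl K w y v = fderiv ℂ K y v w := rfl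

/-- finitely many of the functionals `v ↦ fderiv K y v w` are linearly independent and have the
common kernel `N y` -/
theorem exists_family (ℱ : Set (E → (E →L[ℂ] ℂ))) (y : E) {β : Type*} (b : β → E)
    (hb : ∀ T : E →L[ℂ] ℂ, (∀ a, T (b a) = 0) → T = 0) :
    ∃ (n : ℕ) (K : Fin n → E → (E →L[ℂ] ℂ)) (w : Fin n → β), (∀ k, K k ∈ ℱ) ∧
      LinearIndependent ℂ (fun k => fl (K k) (b (w k)) y) ∧
      ∀ v, (∀ k, fderiv ℂ (K k) y v (b (w k)) = 0) → v ∈ N ℱ y := by
  classical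
  let ι := {K // K ∈ ℱ} × β
  let ℓ : ι → (E →ₗ[ℂ] ℂ) := fun i => fl i.1.1 (b i.2) y
  obtain ⟨κ, a, ha, hspan, hind⟩ := exists_linearIndependent' ℂ ℓ
  have : Finite κ := hind.finite
  have := Fintype.ofFinite κ
  let e : Fin (Fintype.card κ) ≃ κ := (Fintype.equivFin κ).symm
  refine ⟨Fintype.card κ, fun k => (a (e k)).1.1, fun k => (a (e k)).2,
    fun k => (a (e k)).1.2, hind.comp e e.injective, ?_⟩
  intro v hv K hK
  refine hb _ fun w => ?_
  let S : Submodule ℂ (E →ₗ[ℂ] ℂ) := LinearMap.ker (LinearMap.applyₗ (R := ℂ) (M₂ := ℂ) v)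
  have h1 : Submodule.span ℂ (Set.range ℓ) ≤ S := by
    rw [← hspan, Submodule.span_le]
    rintro _ ⟨k, rfl⟩
    have h2 := hv (e.symm k)
    simp only [e.apply_symm_apply] at h2
    exact h2
  have h3 : ℓ (⟨K, hK⟩, w) ∈ S := h1 (Submodule.subset_span ⟨_, rfl⟩)
  exact h3

/-- If the common kernel of the derivatives `fderiv K`, `K ∈ ℱ` closed 1-forms, has at `y₁` the
smallest dimension, its vectors are in the kernels at the points of a disc in their direction. -/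
theorem leaf {ℱ : Set (E → (E →L[ℂ] ℂ))} {B : Set E} (hB : IsOpen B) {y₁ : E} (hy : y₁ ∈ B)
    (hol : ∀ K ∈ ℱ, ∀ y ∈ B, ContDiffAt ℂ ω K y)
    (sym : ∀ K ∈ ℱ, ∀ y ∈ B, ∀ u w, fderiv ℂ K y u w = fderiv ℂ K y w u)
    (hmax : ∀ y ∈ B, Module.finrank ℂ (N ℱ y₁) ≤ Module.finrank ℂ (N ℱ y))
    {v : E} (hv : v ∈ N ℱ y₁) :
    ∃ ε > 0, ∀ τ : ℂ, ‖τ‖ < ε → y₁ + τ • v ∈ B ∧ v ∈ N ℱ (y₁ + τ • v) := by
  obtain ⟨n, K, w, hK, hind, hker⟩ := exists_family ℱ y₁ (id : E → E)
    (fun T hT => ContinuousLinearMap.ext hT)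
  simp only [id] at hind hker
  -- the map `L`
  let A : Fin n → ((E →L[ℂ] (E →L[ℂ] ℂ)) →L[ℂ] (E →L[ℂ] (Fin n → ℂ))) := fun k =>
    ((ContinuousLinearMap.smulRightL ℂ E (Fin n → ℂ)).flip (Pi.single k 1)).comp
      (ContinuousLinearMap.compL ℂ E (E →L[ℂ] ℂ) ℂ (ContinuousLinearMap.apply ℂ ℂ (w k)))
  let L : E → (E →L[ℂ] (Fin n → ℂ)) := fun y => ∑ k, A k (fderiv ℂ (K k) y)
  have hLa : ∀ y x i, L y x i = fderiv ℂ (K i) y x (w i) := by
    intro y x i
    have h1 : L y x = ∑ k, fderiv ℂ (K k) y x (w k) • (Pi.single k (1 : ℂ) : Fin n → ℂ) := by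
      show (∑ k, A k (fderiv ℂ (K k) y)) x = _
      rw [sum_apply]
      rfl
    rw [h1, Finset.sum_apply]
    simp [Pi.single_apply]
  have hLc : ∀ y ∈ B, ContDiffAt ℂ ω L y := by
    intro y hyB
    refine ContDiffAt.sum fun k _ => ?_
    exact (A k).contDiff.contDiffAt.comp y ((hol _ (hK k) y hyB).fderiv_right (by simp))
  have hLs : Function.Surjective (L y₁) := by
    have h1 := surj_of_indep hind
    intro x
    obtain ⟨u, hu⟩ := h1 x
    refine ⟨u, ?_⟩
    rw [← hu]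
    funext i
    rw [hLa]
    rfl
  obtain ⟨R0, hR0⟩ := LinearMap.exists_rightInverse_of_surjective
    ((L y₁ : E →L[ℂ] (Fin n → ℂ)) : E →ₗ[ℂ] (Fin n → ℂ)) (LinearMap.range_eq_top.2 hLs)
  let R : (Fin n → ℂ) →L[ℂ] E := LinearMap.toContinuousLinearMap R0
  have hR : ∀ x, L y₁ (R x) = x := fun x => LinearMap.congr_fun hR0 x
  -- invertibility
  let M : E → ((Fin n → ℂ) →L[ℂ] (Fin n → ℂ)) := fun y => (L y).comp R
  have hMa : ∀ y x, M y x = L y (R x) := fun _ _ => rfl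
  have hM1 : M y₁ = 1 := by
    ext1 x
    exact hR x
  have hMc : ∀ y ∈ B, ContDiffAt ℂ ω M y := fun y hyB => (hLc y hyB).clm_comp contDiffAt_const
  have hev : ∀ᶠ y in 𝓝 y₁, y ∈ B ∧ IsUnit (M y) := by
    refine (hB.eventually_mem hy).and ?_
    have h1 : IsOpen {T : (Fin n → ℂ) →L[ℂ] (Fin n → ℂ) | IsUnit T} := Units.isOpen
    have h2 : M y₁ ∈ {T : (Fin n → ℂ) →L[ℂ] (Fin n → ℂ) | IsUnit T} := by
      show IsUnit (M y₁)
      rw [hM1]; exact isUnit_one
    exact (hMc y₁ hy).continuousAt (h1.mem_nhds h2)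
  obtain ⟨δ, hδ, hball⟩ := Metric.mem_nhds_iff.1 hev
  have hinv : ∀ y ∈ ball y₁ δ, ∀ x, M y (Ring.inverse (M y) x) = x := by
    intro y hyb x
    have h1 := Ring.mul_inverse_cancel (M y) (hball hyb).2
    exact DFunLike.congr_fun h1 x
  have hinv' : ∀ y ∈ ball y₁ δ, ∀ x, M y x = 0 → x = 0 := by
    intro y hyb x hx
    have h1 := Ring.inverse_mul_cancel (M y) (hball hyb).2
    have h2 : Ring.inverse (M y) (M y x) = x := DFunLike.congr_fun h1 x
    rw [← h2, hx, map_zero]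
  let m : E → (Fin n → ℂ) := fun y => -(Ring.inverse (M y) (L y v))
  have hmc : ∀ y ∈ ball y₁ δ, ContDiffAt ℂ ω m y := by
    intro y hyb
    obtain ⟨u, hu⟩ := (hball hyb).2
    have h1 : ContDiffAt ℂ ω Ring.inverse (M y) := by
      rw [← hu]; exact contDiffAt_ringInverse ℂ u
    have h2 : ContDiffAt ℂ ω (fun y => Ring.inverse (M y)) y :=
      ContDiffAt.comp y h1 (hMc y (hball hyb).1)
    exact (h2.clm_apply ((hLc y (hball hyb).1).clm_apply contDiffAt_const)).neg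
  have hLv : L y₁ v = 0 := by
    funext i
    rw [hLa, hv _ (hK i)]
    rfl
  have hm1 : m y₁ = 0 := by
    show -(Ring.inverse (M y₁) (L y₁ v)) = 0
    rw [hLv, map_zero, neg_zero]
  have hLm : ∀ y ∈ ball y₁ δ, L y (v + R (m y)) = 0 := by
    intro y hyb
    have h1 : L y (R (m y)) = -(L y v) := by
      rw [← hMa]
      show M y (-(Ring.inverse (M y) (L y v))) = _
      rw [map_neg, hinv y hyb]
    rw [map_add, h1, add_neg_cancel]
  have hNL : ∀ y, ∀ x ∈ N ℱ y, L y x = 0 := by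
    intro y x hx
    funext i
    rw [hLa, hx _ (hK i)]
    rfl
  have hrk : ∀ T : E →L[ℂ] (Fin n → ℂ), Function.Surjective T →
      n + Module.finrank ℂ (LinearMap.ker (T : E →ₗ[ℂ] (Fin n → ℂ))) = Module.finrank ℂ E := by
    intro T hT
    have h1 := LinearMap.finrank_range_add_finrank_ker (T : E →ₗ[ℂ] (Fin n → ℂ))
    have h2 : LinearMap.range (T : E →ₗ[ℂ] (Fin n → ℂ)) = ⊤ := LinearMap.range_eq_top.2 hT
    rw [h2, finrank_top, Module.finrank_fin_fun] at h1
    exact h1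
  have hN1 : N ℱ y₁ = LinearMap.ker ((L y₁ : E →L[ℂ] (Fin n → ℂ)) : E →ₗ[ℂ] (Fin n → ℂ)) := by
    ext x
    constructor
    · intro hx
      exact hNL y₁ x hx
    · intro hx
      refine hker x fun k => ?_
      have h1 : L y₁ x = 0 := hx
      rw [← hLa, h1]
      rfl
  have hN : ∀ y ∈ ball y₁ δ, ∀ x, L y x = 0 → x ∈ N ℱ y := by
    intro y hyb x hx
    have h1 : N ℱ y ≤ LinearMap.ker ((L y : E →L[ℂ] (Fin n → ℂ)) : E →ₗ[ℂ] (Fin n → ℂ)) :=
      fun x hx => hNL y x hx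
    have h2 : Function.Surjective (L y) := fun z => ⟨R (Ring.inverse (M y) z), hinv y hyb z⟩
    have h3 := hrk _ h2
    have h4 := hrk _ hLs
    have h5 := hmax y (hball hyb).1
    rw [hN1] at h5
    have h6 := Submodule.eq_of_le_of_finrank_le h1 (by omega)
    rw [h6]
    exact hx
  -- the derivative of the vector field `v + R m`
  have key : ∀ y ∈ ball y₁ δ, fderiv ℂ m y (v + R (m y)) = 0 := by
    intro y hyb
    have hyB := (hball hyb).1
    set V : E → E := fun y => v + R (m y) with hV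
    have hmd : HasFDerivAt m (fderiv ℂ m y) y :=
      ((hmc y hyb).differentiableAt (by simp)).hasFDerivAt
    have hVd : HasFDerivAt V (R.comp (fderiv ℂ m y)) y :=
      (R.hasFDerivAt.comp y hmd).const_add v
    have hVN : ∀ y ∈ ball y₁ δ, V y ∈ N ℱ y := fun y hyb => hN y hyb _ (hLm y hyb)
    -- the two identities
    have h1 : ∀ K ∈ ℱ, ∀ a b, fderiv ℂ (fderiv ℂ K) y a (V y) b +
        fderiv ℂ K y (R (fderiv ℂ m y a)) b = 0 := by
      intro K hK a b
      have h2 : HasFDerivAt (fderiv ℂ K) (fderiv ℂ (fderiv ℂ K) y) y :=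
        (((hol K hK y hyB).fderiv_right (m := ω) (by simp)).differentiableAt
          (by simp)).hasFDerivAt
      have h3 := h2.clm_apply hVd
      have h4 : (fun y => fderiv ℂ K y (V y)) =ᶠ[𝓝 y] fun _ => 0 := by
        filter_upwards [isOpen_ball.mem_nhds hyb] with z hz
        exact hVN z hz K hK
      have h5 := h3.congr_of_eventuallyEq h4.symm
      have h6 := h5.unique (hasFDerivAt_const (0 : E →L[ℂ] ℂ) y)
      have h7 := DFunLike.congr_fun (DFunLike.congr_fun h6 a) b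
      have h8 : fderiv ℂ K y (R (fderiv ℂ m y a)) b + fderiv ℂ (fderiv ℂ K) y a (V y) b = 0 := h7
      rw [add_comm]; exact h8
    have hs1 : ∀ K ∈ ℱ, ∀ a b c, fderiv ℂ (fderiv ℂ K) y a b c =
        fderiv ℂ (fderiv ℂ K) y b a c := by
      intro K hK a b c
      have h2 := (hol K hK y hyB).isSymmSndFDerivAt (by simp)
      rw [h2.eq a b]
    have hs2 : ∀ K ∈ ℱ, ∀ a b c, fderiv ℂ (fderiv ℂ K) y a b c =
        fderiv ℂ (fderiv ℂ K) y a c b := by
      intro K hK a b c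
      have h2 : HasFDerivAt (fderiv ℂ K) (fderiv ℂ (fderiv ℂ K) y) y :=
        (((hol K hK y hyB).fderiv_right (m := ω) (by simp)).differentiableAt
          (by simp)).hasFDerivAt
      have h3 := (h2.clm_apply (hasFDerivAt_const b y)).clm_apply (hasFDerivAt_const c y)
      have h4 := (h2.clm_apply (hasFDerivAt_const c y)).clm_apply (hasFDerivAt_const b y)
      have h5 : (fun z => fderiv ℂ K z b c) =ᶠ[𝓝 y] fun z => fderiv ℂ K z c b := by
        filter_upwards [hB.mem_nhds hyB] with z hz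
        exact sym K hK z hz b c
      have h6 := (h3.congr_of_eventuallyEq h5.symm).unique h4
      have h7 := DFunLike.congr_fun h6 a
      simpa using h7
    have h9 : ∀ K ∈ ℱ, ∀ a, fderiv ℂ (fderiv ℂ K) y a (V y) (V y) = 0 := by
      intro K hK a
      have h10 := h1 K hK a (V y)
      rw [sym K hK y hyB, hVN y hyb K hK] at h10
      simpa using h10
    have h11 : R (fderiv ℂ m y (V y)) ∈ N ℱ y := by
      intro K hK
      ext b
      have h12 := h1 K hK (V y) b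
      rw [hs2 K hK, hs1 K hK, h9 K hK b, zero_add] at h12
      exact h12
    have h13 := hNL y _ h11
    rw [← hMa] at h13
    exact hinv' y hyb _ h13
  -- the linear differential equation
  refine ⟨δ / (‖v‖ + 1), by positivity, fun τ hτ => ?_⟩
  set x : E := τ • v with hx
  have hxn : ‖x‖ < δ := by
    rw [hx, norm_smul]
    have h1 : ‖τ‖ * (‖v‖ + 1) < δ := by
      rwa [lt_div_iff₀ (by positivity)] at hτ
    nlinarith [norm_nonneg τ]
  have hmem : ∀ t ∈ Icc (0 : ℝ) 1, y₁ + (t : ℂ) • x ∈ ball y₁ δ := by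
    intro t ht
    rw [mem_ball, dist_eq_norm, add_sub_cancel_left, norm_smul, Complex.norm_real,
      Real.norm_of_nonneg ht.1]
    nlinarith [norm_nonneg x, ht.2, ht.1]
  have hcur : ∀ t : ℝ, HasDerivAt (fun t : ℝ => y₁ + (t : ℂ) • x) x t := by
    intro t
    have h1 : HasDerivAt (fun t : ℝ => (t : ℂ)) 1 t := Complex.ofRealCLM.hasDerivAt
    have h2 := (h1.smul_const x).const_add y₁
    rw [one_smul] at h2
    exact h2
  have hder : ∀ t ∈ Icc (0 : ℝ) 1, HasDerivAt (fun t : ℝ => m (y₁ + (t : ℂ) • x))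
      (fderiv ℂ m (y₁ + (t : ℂ) • x) x) t := by
    intro t ht
    have h1 : HasFDerivAt m (fderiv ℂ m (y₁ + (t : ℂ) • x)) (y₁ + (t : ℂ) • x) :=
      ((hmc _ (hmem t ht)).differentiableAt (by simp)).hasFDerivAt
    exact (h1.restrictScalars ℝ).comp_hasDerivAt t (hcur t)
  have hcd : ContinuousOn (fun t : ℝ => fderiv ℂ m (y₁ + (t : ℂ) • x)) (Icc (0 : ℝ) 1) := by
    intro t ht
    have h1 : ContinuousAt (fderiv ℂ m) (y₁ + (t : ℂ) • x) :=
      ((hmc _ (hmem t ht)).fderiv_right (m := ω) (by simp)).continuousAt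
    exact (ContinuousAt.comp (g := fderiv ℂ m) (f := fun t : ℝ => y₁ + (t : ℂ) • x) h1
      (hcur t).continuousAt).continuousWithinAt
  obtain ⟨C, hC⟩ := isCompact_Icc.exists_bound_of_continuousOn hcd
  have hzero : m (y₁ + ((1 : ℝ) : ℂ) • x) = 0 := by
    refine eq_zero_of_abs_deriv_le_mul_abs_self_of_eq_zero_right (a := 0) (b := 1)
      (f := fun t : ℝ => m (y₁ + (t : ℂ) • x)) (f' := fun t : ℝ => fderiv ℂ m (y₁ + (t : ℂ) • x) x)
      (K := ‖τ‖ * (C * ‖R‖)) ?_ ?_ ?_ ?_ 1 ⟨zero_le_one, le_rfl⟩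
    · exact fun t ht => (hder t ht).continuousAt.continuousWithinAt
    · exact fun t ht => (hder t ⟨ht.1, ht.2.le⟩).hasDerivWithinAt
    · simp only [Complex.ofReal_zero, zero_smul, add_zero]
      exact hm1
    · intro t ht
      have ht' : t ∈ Icc (0 : ℝ) 1 := ⟨ht.1, ht.2.le⟩
      have h1 := key _ (hmem t ht')
      rw [map_add] at h1
      have h2 : fderiv ℂ m (y₁ + (t : ℂ) • x) x =
          τ • (-(fderiv ℂ m (y₁ + (t : ℂ) • x) (R (m (y₁ + (t : ℂ) • x))))) := by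
        rw [hx, map_smul, ← hx, eq_neg_of_add_eq_zero_left h1]
      rw [h2, norm_smul, norm_neg, mul_assoc]
      refine mul_le_mul_of_nonneg_left ?_ (norm_nonneg _)
      calc ‖fderiv ℂ m (y₁ + (t : ℂ) • x) (R (m (y₁ + (t : ℂ) • x)))‖
          ≤ ‖fderiv ℂ m (y₁ + (t : ℂ) • x)‖ * ‖R (m (y₁ + (t : ℂ) • x))‖ :=
            ContinuousLinearMap.le_opNorm _ _
        _ ≤ C * (‖R‖ * ‖m (y₁ + (t : ℂ) • x)‖) := by
            gcongr
            · exact (norm_nonneg _).trans (hC t ht')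
            · exact hC t ht'
            · exact R.le_opNorm _
        _ = C * ‖R‖ * ‖m (y₁ + (t : ℂ) • x)‖ := by ring
  have hb := hmem 1 ⟨zero_le_one, le_rfl⟩
  rw [Complex.ofReal_one, one_smul] at hb hzero
  refine ⟨(hball hb).1, hN _ hb _ ?_⟩
  have h1 := hLm _ hb
  rw [hzero, map_zero, add_zero] at h1
  exact h1

end Vale.Agent.P281.H152.U
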