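import Vale.Agent.P281.H760.TKod
import Vale.Agent.P281.H152.U.Leaf

/-!
# P281, T-U, block U6 (helper152), part 3: flat charts of a coframe of closed holomorphic 1-forms.
-/

open Set Filter Metric
open scoped Topology ContDiff Manifold

noncomputable section

namespace Vale.Agent.P281.H152.U

open Vale.Agent.P281 Vale.Agent.P281.MF Vale.Agent.P272.K

variable {d : ℕ} {F : Type} [TopologicalSpace F] [ChartedSpace (Cm d) F]
  {V : Type*} [NormedAddCommGroup V] [NormedSpace ℂ V]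

/-- closed holomorphic 1-forms -/
def IsForm (η : F → (Cm d →L[ℂ] ℂ)) : Prop :=
  ∀ x, ∃ ψ : F → ℂ, J.HolAt (Cm d) ψ x ∧ ∀ᶠ z in 𝓝 x, η z = J.dif (Cm d) ψ z

/-- the coframe `θ` as a linear map -/
def Th (θ : Fin d → F → (Cm d →L[ℂ] ℂ)) (x : F) : Cm d →L[ℂ] Cm d :=
  ContinuousLinearMap.pi fun a => θ a x

omit [TopologicalSpace F] [ChartedSpace (Cm d) F] in
theorem Th_apply (θ : Fin d → F → (Cm d →L[ℂ] ℂ)) (x : F) (v : Cm d) (a : Fin d) :
    Th θ x v a = θ a x v := rfl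

/-- flat charts: `θ a = d e_a` -/
structure Flat (θ : Fin d → F → (Cm d →L[ℂ] ℂ)) (e : OpenPartialHomeomorph F (Cm d)) : Prop where
  hol : ∀ x ∈ e.source, HolV (Cm d) e x
  symm : ∀ y ∈ e.target, ContMDiffAt 𝓘(ℂ, Cm d) 𝓘(ℂ, Cm d) ω e.symm y
  dif : ∀ x ∈ e.source, dV (Cm d) e x = Th θ x

theorem isUnit_of_injective {T : Cm d →L[ℂ] Cm d} (hT : Function.Injective T) : IsUnit T := by
  let L : Cm d ≃ₗ[ℂ] Cm d := LinearEquiv.ofInjectiveEndo (T : Cm d →ₗ[ℂ] Cm d) hT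
  let M : Cm d ≃L[ℂ] Cm d := L.toContinuousLinearEquiv
  have h1 : (M : Cm d →L[ℂ] Cm d) = T := by
    ext1 x
    rfl
  refine ⟨(ContinuousLinearEquiv.unitsEquiv ℂ (Cm d)).symm M, ?_⟩
  rw [← h1]
  rfl

theorem surj_of_isUnit {T : Cm d →L[ℂ] Cm d} (hT : IsUnit T) (x : Cm d) :
    T (Ring.inverse T x) = x := by
  have h1 := Ring.mul_inverse_cancel T hT
  exact DFunLike.congr_fun h1 x

theorem inj_of_isUnit {T : Cm d →L[ℂ] Cm d} (hT : IsUnit T) (x : Cm d) :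
    Ring.inverse T (T x) = x := by
  have h1 := Ring.inverse_mul_cancel T hT
  exact DFunLike.congr_fun h1 x

variable [IsManifold 𝓘(ℂ, Cm d) ω F] {θ : Fin d → F → (Cm d →L[ℂ] ℂ)}
  {e : OpenPartialHomeomorph F (Cm d)}

namespace Flat

omit [IsManifold 𝓘(ℂ, Cm d) ω F] in
theorem rep_contDiff (he : Flat θ e) {ψ : F → V} {x : F} (hx : x ∈ e.source)
    (hψ : HolV (Cm d) ψ x) : ContDiffAt ℂ ω (fun y => ψ (e.symm y)) (e x) := by
  have h1 := he.symm (e x) (e.map_source hx)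
  have h2 : ContMDiffAt 𝓘(ℂ, Cm d) 𝓘(ℂ, V) ω (fun y => ψ (e.symm y)) (e x) := by
    refine ContMDiffAt.comp (g := ψ) (e x) ?_ h1
    rw [e.left_inv hx]
    exact hψ
  rwa [contMDiffAt_iff_contDiffAt] at h2

/-- the derivative in a flat chart -/
theorem rep (he : Flat θ e) {ψ : F → V} {x : F} (hx : x ∈ e.source) (hψ : HolV (Cm d) ψ x) :
    dV (Cm d) ψ x = (fderiv ℂ (fun y => ψ (e.symm y)) (e x)).comp (Th θ x) := by
  have h1 : ψ =ᶠ[𝓝 x] fun z => (fun y => ψ (e.symm y)) (e z) := by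
    filter_upwards [e.open_source.mem_nhds hx] with z hz
    rw [e.left_inv hz]
  have h2 : dV (Cm d) ψ x = dV (Cm d) (fun z => (fun y => ψ (e.symm y)) (e z)) x := by
    unfold dV; rw [h1.mfderiv_eq]
  rw [h2, dV_comp_contDiff (he.rep_contDiff hx hψ) (he.hol x hx), he.dif x hx]

/-- the coframe is invertible -/
theorem isUnit (he : Flat θ e) {x : F} (hx : x ∈ e.source) : IsUnit (Th θ x) := by
  refine isUnit_of_injective ?_
  obtain ⟨A, hA⟩ := dV_chart_leftInv (E := Cm d) (mem_chart_source (Cm d) x)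
  have h1 := he.rep hx (HolV.chart (mem_chart_source (Cm d) x))
  intro a b hab
  have h2 : ∀ v, A (dV (Cm d) (chartAt (Cm d) x : F → Cm d) x v) = v := fun v =>
    DFunLike.congr_fun hA v
  rw [← h2 a, ← h2 b, h1]
  simp only [ContinuousLinearMap.comp_apply, hab]

theorem fderiv_rep (he : Flat θ e) {ψ : F → V} {x : F} (hx : x ∈ e.source)
    (hψ : HolV (Cm d) ψ x) :
    fderiv ℂ (fun y => ψ (e.symm y)) (e x) = (dV (Cm d) ψ x).comp (Ring.inverse (Th θ x)) := by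
  rw [he.rep hx hψ]
  ext1 v
  simp only [ContinuousLinearMap.comp_apply]
  rw [surj_of_isUnit (he.isUnit hx)]

end Flat

/-- flat charts exist -/
theorem exists_flat (hθ : ∀ a, IsForm (θ a)) {x : F} (hx : Function.Injective (Th θ x)) :
    ∃ e : OpenPartialHomeomorph F (Cm d), x ∈ e.source ∧ Flat θ e := by
  choose ψ hψ hψe using fun a => hθ a x
  set φ := chartAt (Cm d) x with hφ
  have hxφ : x ∈ φ.source := mem_chart_source _ x
  have hφm : φ ∈ IsManifold.maximalAtlas 𝓘(ℂ, Cm d) ω F :=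
    IsManifold.chart_mem_maximalAtlas _
  let Ψ : F → Cm d := fun z a => ψ a z
  have hΨ : HolV (Cm d) Ψ x := HolV.pi hψ
  have hω : (ω : WithTop ℕ∞) ≠ 0 := by simp
  have hdΨ : ∀ z, (∀ a, HolV (Cm d) (ψ a) z) → (∀ a, θ a z = J.dif (Cm d) (ψ a) z) →
      dV (Cm d) Ψ z = Th θ z := by
    intro z h1 h2
    ext1 v
    funext a
    rw [dV_apply (HolV.pi h1), Th_apply, h2 a]
    rfl
  have hev : ∀ᶠ z in 𝓝 x, (∀ a, HolV (Cm d) (ψ a) z) ∧ ∀ a, θ a z = J.dif (Cm d) (ψ a) z :=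
    (eventually_all.2 fun a => HolV.eventually (hψ a)).and (eventually_all.2 hψe)
  set G : Cm d → Cm d := Ψ ∘ φ.symm with hG
  have hGc : ContDiffAt ℂ ω G (φ x) := HolV.rep hxφ hΨ
  have hchain : Th θ x = (fderiv ℂ G (φ x)).comp (dV (Cm d) (φ : F → Cm d) x) := by
    rw [← hdΨ x hev.self_of_nhds.1 hev.self_of_nhds.2]
    exact dV_eq_chart hxφ hΨ
  have hGs : Function.Surjective (fderiv ℂ G (φ x)) := by
    intro v
    refine ⟨dV (Cm d) (φ : F → Cm d) x (Ring.inverse (Th θ x) v), ?_⟩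
    have h1 := surj_of_isUnit (isUnit_of_injective hx) v
    have h2 : Th θ x (Ring.inverse (Th θ x) v) = fderiv ℂ G (φ x)
        (dV (Cm d) (φ : F → Cm d) x (Ring.inverse (Th θ x) v)) := DFunLike.congr_fun hchain _
    exact h2.symm.trans h1
  have hGi : Function.Injective (fderiv ℂ G (φ x)) :=
    (LinearMap.injective_iff_surjective
      (f := (fderiv ℂ G (φ x) : Cm d →ₗ[ℂ] Cm d))).2 hGs
  let L : Cm d ≃L[ℂ] Cm d := (LinearEquiv.ofInjectiveEndo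
    (fderiv ℂ G (φ x) : Cm d →ₗ[ℂ] Cm d) hGi).toContinuousLinearEquiv
  have hG' : HasFDerivAt G (L : Cm d →L[ℂ] Cm d) (φ x) := by
    have h1 : (L : Cm d →L[ℂ] Cm d) = fderiv ℂ G (φ x) := by
      ext1 v
      rfl
    rw [h1]
    exact (hGc.differentiableAt hω).hasFDerivAt
  set e0 := hGc.toOpenPartialHomeomorph G hG' hω with he0
  have hex : φ x ∈ e0.source := hGc.mem_toOpenPartialHomeomorph_source hG' hω
  have hes : ContDiffAt ℂ ω e0.symm (G (φ x)) := hGc.to_localInverse hG' hω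
  set c0 : OpenPartialHomeomorph F (Cm d) := φ ≫ₕ e0 with hc0
  have hxc : x ∈ c0.source := by
    rw [hc0, OpenPartialHomeomorph.trans_source]
    exact ⟨hxφ, hex⟩
  have hcΨ : ∀ z ∈ φ.source, c0 z = Ψ z := by
    intro z hz
    show Ψ (φ.symm (φ z)) = Ψ z
    rw [φ.left_inv hz]
  have hcΨ' : ∀ z ∈ φ.source, (c0 : F → Cm d) =ᶠ[𝓝 z] Ψ := by
    intro z hz
    filter_upwards [φ.open_source.mem_nhds hz] with w hw
    exact hcΨ w hw
  have hB : ContMDiffAt 𝓘(ℂ, Cm d) 𝓘(ℂ, Cm d) ω c0.symm (c0 x) := by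
    have h1 : ContMDiffAt 𝓘(ℂ, Cm d) 𝓘(ℂ, Cm d) ω e0.symm (c0 x) := hes.contMDiffAt
    have h2 : ContMDiffAt 𝓘(ℂ, Cm d) 𝓘(ℂ, Cm d) ω φ.symm (e0.symm (c0 x)) := by
      have h3 : e0.symm (c0 x) = φ x := e0.left_inv hex
      rw [h3]
      exact contMDiffAt_symm_of_mem_maximalAtlas hφm (φ.map_source hxφ)
    exact ContMDiffAt.comp (g := φ.symm) (c0 x) h2 h1
  have hB1 := (contMDiffAt_iff_contMDiffAt_nhds (by simp)).1 hB
  have hB2 : ∀ᶠ z in 𝓝 x, ContMDiffAt 𝓘(ℂ, Cm d) 𝓘(ℂ, Cm d) ω c0.symm (c0 z) :=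
    (c0.continuousAt hxc).eventually hB1
  obtain ⟨W, hW, hWo, hxW⟩ := _root_.eventually_nhds_iff.1 (hev.and hB2)
  refine ⟨c0.restrOpen W hWo, ⟨hxc, hxW⟩, ⟨?_, ?_, ?_⟩⟩
  · rintro z ⟨hz, hzW⟩
    have hzφ : z ∈ φ.source := by
      rw [hc0, OpenPartialHomeomorph.trans_source] at hz
      exact hz.1
    exact (HolV.pi (v := Ψ) (hW z hzW).1.1).congr (hcΨ' z hzφ)
  · intro q hq
    have h1 : c0.symm q ∈ c0.source ∩ W := (c0.restrOpen W hWo).map_target hq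
    have h2 : c0 (c0.symm q) = q := (c0.restrOpen W hWo).right_inv hq
    have h3 := (hW _ h1.2).2
    rw [h2] at h3
    exact h3
  · rintro z ⟨hz, hzW⟩
    have hzφ : z ∈ φ.source := by
      rw [hc0, OpenPartialHomeomorph.trans_source] at hz
      exact hz.1
    have h1 : dV (Cm d) (c0 : F → Cm d) z = dV (Cm d) Ψ z := by
      unfold dV; rw [(hcΨ' z hzφ).mfderiv_eq]
    show dV (Cm d) (c0 : F → Cm d) z = Th θ z
    rw [h1, hdΨ z (hW z hzW).1.1 (hW z hzW).1.2]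

end Vale.Agent.P281.H152.U
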