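import Mathlib

/-!
# P281, T-U, block U6 (helper152), part 1: functions along complete holomorphic flows on a compact set.
-/

open Set Filter Metric
open scoped Topology

noncomputable section

namespace Vale.Agent.P281.H152.U

/-- A continuous function `G` on a compact set `Z` with a holomorphic flow, holomorphic along the
flow, has derivative zero along the flow. -/
theorem flow_const {F : Type*} [TopologicalSpace F] {Z : Set F} (hZ : IsCompact Z) {ε : ℝ}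
    (hε : 0 < ε) (Fl : F → ℂ → F) (h0 : ∀ z ∈ Z, Fl z 0 = z)
    (hFl : ∀ z ∈ Z, ∀ τ ∈ ball (0 : ℂ) ε, Fl z τ ∈ Z) (G G' : F → ℂ) (hG : ContinuousOn G Z)
    (hG' : ContinuousOn G' Z)
    (hd : ∀ z ∈ Z, ∀ τ ∈ ball (0 : ℂ) ε, HasDerivAt (fun s => G (Fl z s)) (G' (Fl z τ)) τ)
    (hd' : ∀ z ∈ Z, DifferentiableOn ℂ (fun τ => G' (Fl z τ)) (ball 0 ε)) :
    ∀ z ∈ Z, G' z = 0 := by
  intro z hz
  obtain ⟨x, hx, hmax⟩ := hZ.exists_isMaxOn ⟨z, hz⟩ hG'.norm
  have hε0 : (0 : ℂ) ∈ ball (0 : ℂ) ε := mem_ball_self hε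
  -- `G'` is constant along the flow at a maximum
  have key : ∀ y ∈ Z, G' y = G' x → ∀ τ ∈ ball (0 : ℂ) ε, G' (Fl y τ) = G' x := by
    intro y hy hyx τ hτ
    have h1 : IsMaxOn (norm ∘ fun τ => G' (Fl y τ)) (ball (0 : ℂ) ε) 0 := by
      intro σ hσ
      show ‖G' (Fl y σ)‖ ≤ ‖G' (Fl y 0)‖
      rw [h0 y hy, hyx]
      exact hmax (hFl y hy σ hσ)
    have h2 := Complex.eqOn_of_isPreconnected_of_isMaxOn_norm (convex_ball 0 ε).isPreconnected
      isOpen_ball (hd' y hy) hε0 h1 hτ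
    have h3 : G' (Fl y τ) = G' (Fl y 0) := h2
    rw [h3, h0 y hy, hyx]
  -- the increment of `G`
  have inc : ∀ y ∈ Z, G' y = G' x → G (Fl y (ε / 2 : ℝ)) = G y + (ε / 2 : ℝ) * G' x := by
    intro y hy hyx
    have h3 : ∀ τ ∈ ball (0 : ℂ) ε, HasDerivAt (fun s => G (Fl y s) - s * G' x) 0 τ := by
      intro τ hτ
      have h4 := hd y hy τ hτ
      rw [key y hy hyx τ hτ] at h4
      have h5 := h4.sub ((hasDerivAt_id τ).mul_const (G' x))
      rw [one_mul, sub_self] at h5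
      exact h5
    have h6 : ((ε / 2 : ℝ) : ℂ) ∈ ball (0 : ℂ) ε := by
      rw [mem_ball_zero_iff, Complex.norm_real, Real.norm_of_nonneg (by positivity)]
      linarith
    have h7 : G (Fl y (ε / 2 : ℝ)) - (ε / 2 : ℝ) * G' x = G (Fl y 0) - 0 * G' x := by
      have h8 : DifferentiableOn ℂ (fun s => G (Fl y s) - s * G' x) (ball (0 : ℂ) ε) :=
        fun τ hτ => (h3 τ hτ).differentiableAt.differentiableWithinAt
      have h9 : ∀ τ ∈ ball (0 : ℂ) ε, fderivWithin ℂ (fun s => G (Fl y s) - s * G' x)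
          (ball (0 : ℂ) ε) τ = 0 := by
        intro τ hτ
        rw [fderivWithin_of_isOpen isOpen_ball hτ]
        have := (h3 τ hτ).hasFDerivAt.fderiv
        rw [this]
        ext
        simp
      exact (convex_ball 0 ε).is_const_of_fderivWithin_eq_zero (𝕜 := ℂ) h8 h9 h6 hε0
    rw [h0 y hy] at h7
    linear_combination h7
  -- iterate
  have h6 : ((ε / 2 : ℝ) : ℂ) ∈ ball (0 : ℂ) ε := by
    rw [mem_ball_zero_iff, Complex.norm_real, Real.norm_of_nonneg (by positivity)]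
    linarith
  have iter : ∀ n : ℕ, ∃ y ∈ Z, G' y = G' x ∧ G y = G x + n * ((ε / 2 : ℝ) * G' x) := by
    intro n
    induction n with
    | zero => exact ⟨x, hx, rfl, by simp⟩
    | succ n ih =>
      obtain ⟨y, hy, hy1, hy2⟩ := ih
      refine ⟨Fl y (ε / 2 : ℝ), hFl y hy _ h6, key y hy hy1 _ h6, ?_⟩
      rw [inc y hy hy1, hy2]
      push_cast
      ring
  obtain ⟨M, hM⟩ := hZ.exists_bound_of_continuousOn hG
  have hzero : G' x = 0 := by
    by_contra hne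
    have hpos : 0 < ‖((ε / 2 : ℝ) : ℂ) * G' x‖ := norm_pos_iff.2 (mul_ne_zero (by
      rw [Ne, Complex.ofReal_eq_zero]; positivity) hne)
    obtain ⟨n, hn⟩ := exists_nat_gt ((M + ‖G x‖) / ‖((ε / 2 : ℝ) : ℂ) * G' x‖)
    rw [div_lt_iff₀ hpos] at hn
    obtain ⟨y, hy, -, hy2⟩ := iter n
    have h10 := hM y hy
    have h11 : (n : ℝ) * ‖((ε / 2 : ℝ) : ℂ) * G' x‖ = ‖G y - G x‖ := by
      have h11' : ‖(n : ℂ) * (((ε / 2 : ℝ) : ℂ) * G' x)‖ =
          (n : ℝ) * ‖((ε / 2 : ℝ) : ℂ) * G' x‖ := by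
        rw [norm_mul (n : ℂ), Complex.norm_natCast]
      rw [hy2, add_sub_cancel_left, h11']
    have h12 := norm_sub_le (G y) (G x)
    linarith
  have h13 : ‖G' z‖ ≤ ‖G' x‖ := hmax hz
  rw [hzero, norm_zero] at h13
  exact norm_le_zero_iff.1 h13

end Vale.Agent.P281.H152.U
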