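import Vale.Agent.P281.H152.U.Flat
import Vale.Agent.P281.H152.U.Flow

/-!
# P281, T-U, block U6 (helper152), part 4: coefficient functions, the level sets of the Gauss map and
the germs of flat lines.
-/

open Set Filter Metric
open scoped Topology ContDiff Manifold

noncomputable section

namespace Vale.Agent.P281.H152.U

open Vale.Agent.P281 Vale.Agent.P281.MF Vale.Agent.P272.K

variable {d : ℕ} {F : Type} [TopologicalSpace F] [ChartedSpace (Cm d) F]
  {V : Type*} [NormedAddCommGroup V] [NormedSpace ℂ V]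

/-- the coefficients of the form `η` in the coframe `θ` -/
def co (θ : Fin d → F → (Cm d →L[ℂ] ℂ)) (η : F → (Cm d →L[ℂ] ℂ)) (x : F) : Cm d →L[ℂ] ℂ :=
  (η x).comp (Ring.inverse (Th θ x))

/-- the derivative of `ψ` in the direction `u` of the coframe -/
def D (θ : Fin d → F → (Cm d →L[ℂ] ℂ)) (u : Cm d) (ψ : F → ℂ) (x : F) : ℂ :=
  dV (Cm d) ψ x (Ring.inverse (Th θ x) u)

variable [IsManifold 𝓘(ℂ, Cm d) ω F] {θ : Fin d → F → (Cm d →L[ℂ] ℂ)}
  {e e' : OpenPartialHomeomorph F (Cm d)}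

namespace Flat

/-- the coefficients in a flat chart -/
theorem co_eventually (he : Flat θ e) {η : F → (Cm d →L[ℂ] ℂ)} (hη : IsForm η) {y : Cm d}
    (hy : y ∈ e.target) : ∃ ψ : F → ℂ, HolV (Cm d) ψ (e.symm y) ∧
      ∀ᶠ z in 𝓝 y, co θ η (e.symm z) = fderiv ℂ (fun w => ψ (e.symm w)) z := by
  have hx : e.symm y ∈ e.source := e.map_target hy
  obtain ⟨ψ, h1, h2⟩ := hη (e.symm y)
  refine ⟨ψ, h1, ?_⟩
  have h3 : ∀ᶠ z in 𝓝 (e.symm y), HolV (Cm d) ψ z ∧ η z = J.dif (Cm d) ψ z :=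
    (HolV.eventually h1).and h2
  have h4 : ∀ᶠ z in 𝓝 y, HolV (Cm d) ψ (e.symm z) ∧ η (e.symm z) = J.dif (Cm d) ψ (e.symm z) :=
    (e.continuousAt_symm hy).eventually h3
  filter_upwards [h4, e.open_target.mem_nhds hy] with z h5 h6
  have h7 := he.fderiv_rep (e.map_target h6) h5.1
  rw [e.right_inv h6] at h7
  rw [h7, co, h5.2]
  rfl

theorem co_contDiff (he : Flat θ e) {η : F → (Cm d →L[ℂ] ℂ)} (hη : IsForm η) {y : Cm d}
    (hy : y ∈ e.target) : ContDiffAt ℂ ω (fun z => co θ η (e.symm z)) y := by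
  obtain ⟨ψ, h1, h2⟩ := he.co_eventually hη hy
  have h3 := he.rep_contDiff (e.map_target hy) h1
  rw [e.right_inv hy] at h3
  exact (h3.fderiv_right (m := ω) (by simp)).congr_of_eventuallyEq h2

/-- the coefficients are closed -/
theorem co_symm (he : Flat θ e) {η : F → (Cm d →L[ℂ] ℂ)} (hη : IsForm η) {y : Cm d}
    (hy : y ∈ e.target) (u w : Cm d) : fderiv ℂ (fun z => co θ η (e.symm z)) y u w =
      fderiv ℂ (fun z => co θ η (e.symm z)) y w u := by
  obtain ⟨ψ, h1, h2⟩ := he.co_eventually hη hy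
  have h3 := he.rep_contDiff (e.map_target hy) h1
  rw [e.right_inv hy] at h3
  have h4 : (fun z => co θ η (e.symm z)) =ᶠ[𝓝 y] fderiv ℂ (fun w => ψ (e.symm w)) := h2
  rw [h4.fderiv_eq]
  exact (h3.isSymmSndFDerivAt (by simp)).eq u w

theorem D_eq (he : Flat θ e) {ψ : F → ℂ} {x : F} (hx : x ∈ e.source) (hψ : HolV (Cm d) ψ x)
    (u : Cm d) : D θ u ψ x = fderiv ℂ (fun y => ψ (e.symm y)) (e x) u := by
  rw [he.fderiv_rep hx hψ]
  rfl

/-- change of flat charts -/
theorem change (he : Flat θ e) (he' : Flat θ e') {w : F} (hw : w ∈ e.source)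
    (hw' : w ∈ e'.source) : ∀ᶠ y in 𝓝 (e w), e.symm y = e'.symm (e' w + (y - e w)) := by
  have h1 : ∀ᶠ y in 𝓝 (e w), y ∈ e.target ∧ e.symm y ∈ e'.source := by
    refine (e.open_target.eventually_mem (e.map_source hw)).and ?_
    have h2 : ContinuousAt e.symm (e w) := e.continuousAt_symm (e.map_source hw)
    have h3 : e'.source ∈ 𝓝 (e.symm (e w)) := by
      rw [e.left_inv hw]
      exact e'.open_source.mem_nhds hw'
    exact h2 h3
  obtain ⟨r, hr, hball⟩ := Metric.eventually_nhds_iff_ball.1 h1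
  have hd : ∀ y ∈ ball (e w) r, HasFDerivAt (fun y => e' (e.symm y) - y) (0 : Cm d →L[ℂ] Cm d)
      y := by
    intro y hy
    obtain ⟨h2, h3⟩ := hball y hy
    have h4 := he.rep_contDiff (e.map_target h2) (he'.hol _ h3)
    have h5 := he.fderiv_rep (e.map_target h2) (he'.hol _ h3)
    rw [e.right_inv h2] at h4 h5
    rw [he'.dif _ h3] at h5
    have h6 : (Th θ (e.symm y)).comp (Ring.inverse (Th θ (e.symm y))) =
        ContinuousLinearMap.id ℂ (Cm d) := by
      ext1 v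
      exact surj_of_isUnit (he.isUnit (e.map_target h2)) v
    rw [h6] at h5
    have h7 : HasFDerivAt (fun y => e' (e.symm y)) (ContinuousLinearMap.id ℂ (Cm d)) y := by
      rw [← h5]
      exact (h4.differentiableAt (by simp)).hasFDerivAt
    have h8 := h7.sub (hasFDerivAt_id (𝕜 := ℂ) y)
    rw [sub_self] at h8
    exact h8
  have hc : ∀ y ∈ ball (e w) r, e' (e.symm y) - y = e' (e.symm (e w)) - e w := by
    intro y hy
    refine (convex_ball (e w) r).is_const_of_fderivWithin_eq_zero (𝕜 := ℂ)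
      (f := fun y => e' (e.symm y) - y) ?_ ?_ hy (mem_ball_self hr)
    · exact fun y hy => (hd y hy).differentiableAt.differentiableWithinAt
    · intro y hy
      rw [fderivWithin_of_isOpen isOpen_ball hy]
      exact (hd y hy).fderiv
  filter_upwards [ball_mem_nhds (e w) hr] with y hy
  have h9 := hc y hy
  rw [e.left_inv hw] at h9
  have h10 : e' w + (y - e w) = e' (e.symm y) := by
    rw [sub_eq_iff_eq_add] at h9
    rw [h9]; abel
  rw [h10, e'.left_inv (hball y hy).2]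

end Flat

/-- a level set of the Gauss map -/
def Lev (θ : Fin d → F → (Cm d →L[ℂ] ℂ)) (x₁ : F) : Set F :=
  {x | ∀ η : F → (Cm d →L[ℂ] ℂ), IsForm η → η x = (co θ η x₁).comp (Th θ x)}

/-- the set of the points of the level set such that the flat line in the direction `u` is locally
contained in the level set -/
def Lin (θ : Fin d → F → (Cm d →L[ℂ] ℂ)) (x₁ : F) (u : Cm d) : Set F :=
  {x | ∃ e : OpenPartialHomeomorph F (Cm d), Flat θ e ∧ x ∈ e.source ∧
    ∀ᶠ τ : ℂ in 𝓝 0, e.symm (e x + τ • u) ∈ Lev θ x₁}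

theorem Lin_chart {x₁ x : F} {u : Cm d} (hx : x ∈ Lin θ x₁ u) (he : Flat θ e)
    (hxe : x ∈ e.source) : ∀ᶠ τ : ℂ in 𝓝 0, e.symm (e x + τ • u) ∈ Lev θ x₁ := by
  obtain ⟨e', he', hxe', h1⟩ := hx
  have h2 := he'.change he hxe' hxe
  have h3 : Tendsto (fun τ : ℂ => e' x + τ • u) (𝓝 0) (𝓝 (e' x)) := by
    have : Continuous fun τ : ℂ => e' x + τ • u := by fun_prop
    have h := this.tendsto 0
    rwa [zero_smul, add_zero] at h
  filter_upwards [h1, h3.eventually h2] with τ h4 h5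
  rw [add_sub_cancel_left] at h5
  rw [← h5]
  exact h4

theorem Lin_sub {x₁ : F} {u : Cm d} : Lin θ x₁ u ⊆ Lev θ x₁ := by
  rintro x ⟨e, -, hx, h⟩
  have h1 := h.self_of_nhds
  rw [zero_smul, add_zero, e.left_inv hx] at h1
  exact h1

/-- the level set is closed -/
theorem isClosed_Lev (hθ : ∀ a, IsForm (θ a)) (x₁ : F) : IsClosed (Lev θ x₁) := by
  have h1 : Lev θ x₁ = ⋂ (η : F → (Cm d →L[ℂ] ℂ)) (_ : IsForm η),
      {x | η x = (co θ η x₁).comp (Th θ x)} := by
    ext x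
    simp only [Lev, mem_iInter]
    rfl
  rw [h1]
  refine isClosed_iInter fun η => isClosed_iInter fun hη => ?_
  rw [← isOpen_compl_iff, isOpen_iff_mem_nhds]
  intro x hx
  have hx' : η x ≠ (co θ η x₁).comp (Th θ x) := hx
  set φ := chartAt (Cm d) x with hφ
  have hxφ : x ∈ φ.source := mem_chart_source _ x
  obtain ⟨ψ, hψ, hψe⟩ := hη x
  choose χ hχ hχe using fun a => hθ a x
  have hψ' : HolV (Cm d) ψ x := hψ
  let Χ : F → Cm d := fun z a => χ a z
  have hΧ : HolV (Cm d) Χ x := HolV.pi hχ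
  -- the difference in the chart
  let A : F → (Cm d →L[ℂ] ℂ) := fun z => fderiv ℂ (ψ ∘ φ.symm) (φ z) -
    (co θ η x₁).comp (fderiv ℂ (Χ ∘ φ.symm) (φ z))
  have hA : ContinuousAt A x := by
    have h2 : ContinuousAt (fderiv ℂ (ψ ∘ φ.symm)) (φ x) :=
      ((hψ'.rep hxφ).fderiv_right (m := ω) (by simp)).continuousAt
    have h3 : ContinuousAt (fderiv ℂ (Χ ∘ φ.symm)) (φ x) :=
      ((hΧ.rep hxφ).fderiv_right (m := ω) (by simp)).continuousAt
    have h4 : ContinuousAt φ x := φ.continuousAt hxφ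
    exact (ContinuousAt.comp (g := fderiv ℂ (ψ ∘ φ.symm)) h2 h4).sub
      (continuousAt_const.clm_comp (ContinuousAt.comp (g := fderiv ℂ (Χ ∘ φ.symm)) h3 h4))
  have key : ∀ᶠ z in 𝓝 x, η z - (co θ η x₁).comp (Th θ z) =
      (A z).comp (dV (Cm d) (φ : F → Cm d) z) := by
    have e1 : ∀ᶠ z in 𝓝 x, HolV (Cm d) ψ z := hψ'.eventually
    have e2 : ∀ᶠ z in 𝓝 x, ∀ a, HolV (Cm d) (χ a) z := eventually_all.2 fun a =>
      HolV.eventually (hχ a)
    have e3 : ∀ᶠ z in 𝓝 x, ∀ a, θ a z = J.dif (Cm d) (χ a) z := eventually_all.2 hχe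
    filter_upwards [e1, e2, e3, hψe, φ.open_source.mem_nhds hxφ] with z z1 z2 z3 z4 z5
    have h5 : Th θ z = dV (Cm d) Χ z := by
      ext1 v
      funext a
      rw [dV_apply (HolV.pi z2), Th_apply, z3 a]
      rfl
    have h6 : η z = dV (Cm d) ψ z := z4
    rw [h6, h5, dV_eq_chart z5 z1, dV_eq_chart z5 (HolV.pi z2)]
    rfl
  have hA0 : A x ≠ 0 := by
    intro h0
    have h7 := key.self_of_nhds
    rw [h0, ContinuousLinearMap.zero_comp, sub_eq_zero] at h7
    exact hx' h7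
  filter_upwards [key, hA.eventually_ne hA0, φ.open_source.mem_nhds hxφ] with z h8 h9 h10 h11
  have h11' : η z = (co θ η x₁).comp (Th θ z) := h11
  rw [h11', sub_self] at h8
  refine h9 ?_
  obtain ⟨B, hB⟩ := dV_chart_leftInv (E := Cm d) h10
  -- `dV φ z` is surjective
  have h12 : Function.Surjective (dV (Cm d) (φ : F → Cm d) z) := by
    refine (LinearMap.injective_iff_surjective
      (f := (dV (Cm d) (φ : F → Cm d) z : Cm d →ₗ[ℂ] Cm d))).1 ?_
    intro a b hab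
    have h13 : ∀ v, B (dV (Cm d) (φ : F → Cm d) z v) = v := fun v => DFunLike.congr_fun hB v
    have hab' : dV (Cm d) (φ : F → Cm d) z a = dV (Cm d) (φ : F → Cm d) z b := hab
    rw [← h13 a, ← h13 b, hab']
  ext1 v
  obtain ⟨v', rfl⟩ := h12 v
  exact (DFunLike.congr_fun h8 v').symm

/-- at the points of the level set, `θ` is a coframe -/
theorem Lev_inj {x₁ x : F} (hgen : ∀ v : Cm d, v ≠ 0 → ∃ η : F → (Cm d →L[ℂ] ℂ),
    IsForm η ∧ η x v ≠ 0) (hx : x ∈ Lev θ x₁) : Function.Injective (Th θ x) := by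
  rw [injective_iff_map_eq_zero]
  intro v hv
  by_contra hne
  obtain ⟨η, hη, hηv⟩ := hgen v hne
  refine hηv ?_
  rw [hx η hη, ContinuousLinearMap.comp_apply, hv, map_zero]

/-- the coefficients at the points of the level set -/
theorem Lev_iff (he : Flat θ e) {x₁ x : F} (hx : x ∈ e.source) :
    x ∈ Lev θ x₁ ↔ ∀ η : F → (Cm d →L[ℂ] ℂ), IsForm η → co θ η x = co θ η x₁ := by
  constructor
  · intro h η hη
    rw [co, h η hη]
    ext1 v
    simp only [ContinuousLinearMap.comp_apply]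
    rw [surj_of_isUnit (he.isUnit hx)]
  · intro h η hη
    rw [← h η hη, co]
    ext1 v
    simp only [ContinuousLinearMap.comp_apply]
    rw [inj_of_isUnit (he.isUnit hx)]

/-- the flat discs through the points of `Lin` are contained in the level set -/
theorem disc_Lev {x₁ x : F} {u : Cm d} (hx : x ∈ Lin θ x₁ u) (he : Flat θ e)
    (hxe : x ∈ e.source) {ρ : ℝ} (hρ : 0 < ρ)
    (hball : ∀ τ ∈ ball (0 : ℂ) ρ, e x + τ • u ∈ e.target) :
    ∀ τ ∈ ball (0 : ℂ) ρ, e.symm (e x + τ • u) ∈ Lev θ x₁ := by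
  intro τ hτ
  rw [Lev_iff he (e.map_target (hball τ hτ))]
  intro η hη
  have h1 : DifferentiableOn ℂ (fun τ : ℂ => co θ η (e.symm (e x + τ • u))) (ball 0 ρ) := by
    intro σ hσ
    refine DifferentiableAt.differentiableWithinAt ?_
    have h2 := (he.co_contDiff hη (hball σ hσ)).differentiableAt (by simp)
    exact DifferentiableAt.comp (g := fun z => co θ η (e.symm z))
      (f := fun τ : ℂ => e x + τ • u) σ h2 (by fun_prop)
  have h3 : AnalyticOnNhd ℂ (fun τ : ℂ => co θ η (e.symm (e x + τ • u))) (ball 0 ρ) :=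
    h1.analyticOnNhd isOpen_ball
  have h4 : (fun τ : ℂ => co θ η (e.symm (e x + τ • u))) =ᶠ[𝓝 0] fun _ => co θ η x₁ := by
    filter_upwards [Lin_chart hx he hxe, ball_mem_nhds (0 : ℂ) hρ] with σ h5 h6
    exact (Lev_iff he (e.map_target (hball σ h6))).1 h5 η hη
  exact h3.eqOn_of_preconnected_of_eventuallyEq analyticOnNhd_const
    (convex_ball 0 ρ).isPreconnected (mem_ball_self hρ) h4 hτ

theorem disc_Lin {x₁ x : F} {u : Cm d} (hx : x ∈ Lin θ x₁ u) (he : Flat θ e)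
    (hxe : x ∈ e.source) {ρ : ℝ} (hρ : 0 < ρ)
    (hball : ∀ τ ∈ ball (0 : ℂ) ρ, e x + τ • u ∈ e.target) :
    ∀ τ ∈ ball (0 : ℂ) ρ, e.symm (e x + τ • u) ∈ Lin θ x₁ u := by
  intro τ hτ
  have h1 := disc_Lev hx he hxe hρ hball
  refine ⟨e, he, e.map_target (hball τ hτ), ?_⟩
  rw [e.right_inv (hball τ hτ)]
  have h2 : Tendsto (fun σ : ℂ => τ + σ) (𝓝 0) (𝓝 τ) := by
    have : Continuous fun σ : ℂ => τ + σ := by fun_prop
    have h := this.tendsto 0
    rwa [add_zero] at h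
  filter_upwards [h2.eventually (isOpen_ball.mem_nhds hτ)] with σ hσ
  rw [add_assoc, ← add_smul]
  exact h1 _ hσ

/-- a flat chart with a ball -/
theorem exists_ball (hθ : ∀ a, IsForm (θ a)) {x : F} (hx : Function.Injective (Th θ x)) :
    ∃ (e : OpenPartialHomeomorph F (Cm d)) (δ : ℝ), 0 < δ ∧ Flat θ e ∧ x ∈ e.source ∧
      ball (e x) (2 * δ) ⊆ e.target := by
  obtain ⟨e, h1, h2⟩ := exists_flat hθ hx
  obtain ⟨r, hr, hball⟩ := Metric.isOpen_iff.1 e.open_target (e x) (e.map_source h1)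
  exact ⟨e, r / 2, by positivity, h2, h1, by rwa [mul_div_cancel₀ _ two_ne_zero]⟩

theorem ball_line {y z u : Cm d} {δ ε : ℝ} {τ : ℂ} (hz : z ∈ ball y δ)
    (hε : ε * (‖u‖ + 1) ≤ δ) (hτ : τ ∈ ball (0 : ℂ) ε) : z + τ • u ∈ ball y (2 * δ) := by
  rw [mem_ball, dist_eq_norm] at hz ⊢
  rw [mem_ball_zero_iff] at hτ
  have h1 : ‖τ • u‖ < δ := by
    rw [norm_smul]
    nlinarith [norm_nonneg u, norm_nonneg τ]
  calc ‖z + τ • u - y‖ = ‖(z - y) + τ • u‖ := by congr 1; abel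
    _ ≤ ‖z - y‖ + ‖τ • u‖ := norm_add_le _ _
    _ < 2 * δ := by linarith

theorem isClosed_Lin (hθ : ∀ a, IsForm (θ a)) (hgen : ∀ (x : F) (v : Cm d), v ≠ 0 →
    ∃ η : F → (Cm d →L[ℂ] ℂ), IsForm η ∧ η x v ≠ 0) (x₁ : F) (u : Cm d) :
    IsClosed (Lin θ x₁ u) := by
  rw [isClosed_iff_frequently]
  intro x hx
  have hxL : x ∈ Lev θ x₁ := by
    have h1 : ∃ᶠ z in 𝓝 x, z ∈ Lev θ x₁ := hx.mono fun z hz => Lin_sub hz
    exact (isClosed_Lev hθ x₁).mem_of_frequently_of_tendsto h1 tendsto_id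
  obtain ⟨e, δ, hδ, he, hxe, hball⟩ := exists_ball hθ (Lev_inj (hgen x) hxL)
  refine ⟨e, he, hxe, ?_⟩
  set ε : ℝ := δ / (‖u‖ + 1) with hε
  have hε0 : 0 < ε := by positivity
  have hεu : ε * (‖u‖ + 1) ≤ δ := by
    rw [hε, div_mul_cancel₀ _ (by positivity)]
  filter_upwards [ball_mem_nhds (0 : ℂ) hε0] with τ hτ
  have h2 : ∀ᶠ z in 𝓝 x, z ∈ e.source ∧ e z ∈ ball (e x) δ :=
    (e.open_source.eventually_mem hxe).and
      ((e.continuousAt hxe) (ball_mem_nhds (e x) hδ))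
  have h3 : ∃ᶠ z in 𝓝 x, e.symm (e z + τ • u) ∈ Lev θ x₁ := by
    refine (hx.and_eventually h2).mono fun z hz => ?_
    obtain ⟨hz1, hz2, hz3⟩ := hz
    exact disc_Lev hz1 he hz2 hε0 (fun σ hσ => hball (ball_line hz3 hεu hσ)) τ hτ
  have h4 : e x + τ • u ∈ e.target := hball (ball_line (mem_ball_self hδ) hεu hτ)
  have h5 : Tendsto (fun z => e.symm (e z + τ • u)) (𝓝 x) (𝓝 (e.symm (e x + τ • u))) := by
    have h6 : ContinuousAt (fun z => e z + τ • u) x := (e.continuousAt hxe).add continuousAt_const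
    exact ContinuousAt.comp (g := e.symm) (e.continuousAt_symm h4) h6
  exact (isClosed_Lev hθ x₁).mem_of_frequently_of_tendsto h3 h5

end Vale.Agent.P281.H152.U
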