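import Vale.Agent.P281.H152.U.Germ

/-!
# P281, T-U, block U6 (helper152), part 6: the rank of the Gauss map in a flat chart.
-/

open Set Filter Metric
open scoped Topology ContDiff Manifold

noncomputable section

namespace Vale.Agent.P281.H152.U

open Vale.Agent.P281 Vale.Agent.P281.MF Vale.Agent.P272.K
open Vale.Agent.P281.H64.TK (IsPrim coef GaussRank)

variable {d : ℕ} {F : Type} [TopologicalSpace F] [ChartedSpace (Cm d) F]
  {θ : Fin d → F → (Cm d →L[ℂ] ℂ)} {e : OpenPartialHomeomorph F (Cm d)}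

theorem GaussRank_mono {m n : ℕ} (h : m ≤ n) (hn : GaussRank d F n) : GaussRank d F m := by
  obtain ⟨x, φ, h1, h2, h3⟩ := hn
  refine ⟨x, fun k => φ (Fin.castLE (by omega) k), fun k a => h1 _ a, h2, ?_⟩
  intro y
  obtain ⟨ξ, hξ⟩ := h3 fun k => if hk : k.1 < m then y ⟨k.1, hk⟩ else 0
  refine ⟨ξ, ?_⟩
  funext k
  have h4 := congrFun hξ (Fin.castLE h k)
  simp only [Fin.val_castLE, k.2, dif_pos] at h4
  exact h4

/-- the coefficient functions in a flat chart -/
def FF (θ : Fin d → F → (Cm d →L[ℂ] ℂ)) (e : OpenPartialHomeomorph F (Cm d)) :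
    Set (Cm d → (Cm d →L[ℂ] ℂ)) :=
  {K | ∃ η : F → (Cm d →L[ℂ] ℂ), IsForm η ∧ K = fun y => co θ η (e.symm y)}

variable [IsManifold 𝓘(ℂ, Cm d) ω F]

omit [IsManifold 𝓘(ℂ, Cm d) ω F] in
theorem isPrim_of {η : F → (Cm d →L[ℂ] ℂ)} (hη : IsForm η) {ψ : F → ℂ} {x : F}
    (h1 : J.HolAt (Cm d) ψ x) (h2 : ∀ᶠ z in 𝓝 x, η z = J.dif (Cm d) ψ z) :
    IsPrim (d := d) ψ x := ⟨h1, η, h2, hη⟩

/-- the differentials of the charts are surjective -/
theorem dV_chart_surj' {x z : F} (hz : z ∈ (chartAt (Cm d) x).source) :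
    Function.Surjective (dV (Cm d) (chartAt (Cm d) x : F → Cm d) z) := by
  obtain ⟨B, hB⟩ := dV_chart_leftInv (E := Cm d) hz
  refine (LinearMap.injective_iff_surjective
    (f := (dV (Cm d) (chartAt (Cm d) x : F → Cm d) z : Cm d →ₗ[ℂ] Cm d))).1 ?_
  intro a b hab
  have h13 : ∀ v, B (dV (Cm d) (chartAt (Cm d) x : F → Cm d) z v) = v := fun v =>
    DFunLike.congr_fun hB v
  have hab' : dV (Cm d) (chartAt (Cm d) x : F → Cm d) z a =
    dV (Cm d) (chartAt (Cm d) x : F → Cm d) z b := hab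
  rw [← h13 a, ← h13 b, hab']

/-- `η = ∑ c_a θ_a` -/
theorem co_sum {x : F} (hx : IsUnit (Th θ x)) (η : F → (Cm d →L[ℂ] ℂ)) :
    η x = ∑ a, co θ η x (Pi.single a 1) • θ a x := by
  ext1 v
  have h1 : η x v = co θ η x (Th θ x v) := by
    rw [co, ContinuousLinearMap.comp_apply, inj_of_isUnit hx]
  rw [h1, H760.clm_sum (co θ η x) (Th θ x v), sum_apply]
  refine Finset.sum_congr rfl fun a _ => ?_
  rw [Th_apply, smul_apply, smul_eq_mul, mul_comm]

theorem gaussRank_of {x₁ : F} (hθ : ∀ a, IsForm (θ a)) (he : Flat θ e) (hx : x₁ ∈ e.source)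
    {n : ℕ} {K : Fin n → Cm d → (Cm d →L[ℂ] ℂ)} {w : Fin n → Fin d} (hK : ∀ k, K k ∈ FF θ e)
    (hind : LinearIndependent ℂ
      (fun k => fl (K k) (Pi.single (w k) (1 : ℂ) : Cm d) (e x₁))) : GaussRank d F n := by
  choose η hη hKη using hK
  choose ψ hψ hψe using fun a => hθ a x₁
  choose χ hχ hχe using fun k => hη k x₁
  let φ : Fin (n + 1) → Fin d → F → ℂ := Fin.cons ψ fun k => Function.update ψ (w k) (χ k)
  have hφ0 : φ 0 = ψ := rfl
  have hφs : ∀ k : Fin n, φ k.succ = Function.update ψ (w k) (χ k) := fun k => rfl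
  set c := chartAt (Cm d) x₁ with hc
  have hxc : x₁ ∈ c.source := mem_chart_source _ x₁
  set P : Cm d → Matrix (Fin d) (Fin d) ℂ := fun v => Matrix.of fun a b =>
    fderiv ℂ (fun u => ψ a (c.symm u)) v (Pi.single b 1) with hP
  have hcoef0 : ∀ v, coef x₁ (φ 0) v = (P v).det := fun v => rfl
  have hψ' : ∀ a, HolV (Cm d) (ψ a) x₁ := hψ
  have hχ' : ∀ k, HolV (Cm d) (χ k) x₁ := hχ
  have hev : ∀ᶠ z in 𝓝 x₁, (∀ a, HolV (Cm d) (ψ a) z) ∧ (∀ a, θ a z = J.dif (Cm d) (ψ a) z) ∧
      (∀ k, HolV (Cm d) (χ k) z) ∧ (∀ k, η k z = J.dif (Cm d) (χ k) z) ∧ z ∈ c.source ∧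
      z ∈ e.source :=
    (eventually_all.2 fun a => (hψ' a).eventually).and ((eventually_all.2 hψe).and
      ((eventually_all.2 fun k => (hχ' k).eventually).and ((eventually_all.2 hχe).and
        ((c.open_source.eventually_mem hxc).and (e.open_source.eventually_mem hx)))))
  have hcs : Tendsto c.symm (𝓝 (c x₁)) (𝓝 x₁) := by
    have := c.continuousAt_symm (c.map_source hxc)
    rwa [ContinuousAt, c.left_inv hxc] at this
  -- the coefficients of `η k` in the chart
  have hrow : ∀ᶠ v in 𝓝 (c x₁), v ∈ c.target ∧ ∀ k, fderiv ℂ (fun u => χ k (c.symm u)) v =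
      ∑ a, co θ (η k) (c.symm v) (Pi.single a 1) • fderiv ℂ (fun u => ψ a (c.symm u)) v := by
    filter_upwards [hcs.eventually hev, c.open_target.eventually_mem (c.map_source hxc)]
      with v ⟨z1, z2, z3, z4, z5, z6⟩ hv
    refine ⟨hv, fun k => ?_⟩
    have h1 := co_sum (he.isUnit z6) (η k)
    have h2 : η k (c.symm v) = (fderiv ℂ (fun u => χ k (c.symm u)) v).comp
        (dV (Cm d) (c : F → Cm d) (c.symm v)) := by
      have := dV_eq_chart z5 (z3 k)
      rw [c.right_inv hv] at this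
      exact (z4 k).trans this
    have h3 : ∀ a, θ a (c.symm v) = (fderiv ℂ (fun u => ψ a (c.symm u)) v).comp
        (dV (Cm d) (c : F → Cm d) (c.symm v)) := by
      intro a
      have := dV_eq_chart z5 (z1 a)
      rw [c.right_inv hv] at this
      exact (z2 a).trans this
    ext1 y
    obtain ⟨y', rfl⟩ := dV_chart_surj' z5 y
    have h4 := DFunLike.congr_fun h1 y'
    rw [h2, ContinuousLinearMap.comp_apply, sum_apply] at h4
    rw [h4, sum_apply]
    refine Finset.sum_congr rfl fun a _ => ?_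
    rw [smul_apply, smul_apply, h3 a]
    rfl
  have hcoefk : ∀ᶠ v in 𝓝 (c x₁), ∀ k : Fin n, coef x₁ (φ k.succ) v =
      co θ (η k) (c.symm v) (Pi.single (w k) 1) * (P v).det := by
    filter_upwards [hrow] with v hv k
    have h1 : coef x₁ (φ k.succ) v = ((P v).updateRow (w k)
        (∑ a, co θ (η k) (c.symm v) (Pi.single a 1) • (P v) a)).det := by
      unfold coef
      congr 1
      ext a b
      rw [Matrix.of_apply, hφs, Matrix.updateRow_apply]
      split_ifs with hab
      · rw [hab, Function.update_self, hv.2 k, sum_apply, Finset.sum_apply]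
        refine Finset.sum_congr rfl fun a' _ => ?_
        rw [smul_apply, Pi.smul_apply]
        rfl
      · rw [Function.update_of_ne hab]
        rfl
    rw [h1, Matrix.det_updateRow_sum, smul_eq_mul]
  -- the determinant is not zero
  have hunit := he.isUnit hx
  have hdet : (P (c x₁)).det ≠ 0 := by
    intro h0
    obtain ⟨v, hv, hv0⟩ := Matrix.exists_mulVec_eq_zero_iff.2 h0
    obtain ⟨v', hv'⟩ := dV_chart_surj' hxc v
    have h1 : Th θ x₁ v' = 0 := by
      funext a
      have h2 : θ a x₁ = (fderiv ℂ (fun u => ψ a (c.symm u)) (c x₁)).comp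
          (dV (Cm d) (c : F → Cm d) x₁) :=
        (hψe a).self_of_nhds.trans (dV_eq_chart hxc (hψ' a))
      rw [Th_apply, h2, ContinuousLinearMap.comp_apply, hv', H760.clm_sum]
      have h3 := congrFun hv0 a
      rw [Pi.zero_apply] at h3
      rw [Pi.zero_apply, ← h3, Matrix.mulVec, dotProduct]
      refine Finset.sum_congr rfl fun b _ => ?_
      rw [mul_comm]
      rfl
    have h4 : v' = 0 := by
      rw [← inj_of_isUnit hunit v', h1, map_zero]
    rw [h4, map_zero] at hv'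
    exact hv hv'.symm
  have hPc : ∀ᶠ v in 𝓝 (c x₁), (P v).det ≠ 0 := by
    have h1 : ContinuousAt (fun v => (P v).det) (c x₁) := by
      have h2 : ∀ a b, ContinuousAt (fun v => P v a b) (c x₁) := fun a b =>
        (((hψ' a).rep hxc).fderiv_right (m := ω) (by simp)).continuousAt.clm_apply
          continuousAt_const
      have h3 : ContinuousAt P (c x₁) := continuousAt_pi.2 fun a => continuousAt_pi.2 (h2 a)
      exact ContinuousAt.comp (g := fun M : Matrix (Fin d) (Fin d) ℂ => M.det)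
        (Continuous.matrix_det continuous_id).continuousAt h3
    exact h1.eventually_ne hdet
  -- the ratios
  have hratio : ∀ k : Fin n, (fun v => coef x₁ (φ k.succ) v / coef x₁ (φ 0) v) =ᶠ[𝓝 (c x₁)]
      fun v => K k (e (c.symm v)) (Pi.single (w k) 1) := by
    intro k
    filter_upwards [hcoefk, hPc, hcs.eventually hev] with v h1 h2 ⟨_, _, _, _, _, z6⟩
    rw [h1 k, hcoef0, mul_div_cancel_right₀ _ h2, hKη k]
    show co θ (η k) (c.symm v) (Pi.single (w k) 1) =
      co θ (η k) (e.symm (e (c.symm v))) (Pi.single (w k) 1)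
    rw [e.left_inv z6]
  set T : Cm d →L[ℂ] Cm d := fderiv ℂ (fun v => e (c.symm v)) (c x₁) with hT
  have hTd : HasFDerivAt (fun v => e (c.symm v)) T (c x₁) :=
    (((he.hol x₁ hx).rep hxc).differentiableAt (by simp)).hasFDerivAt
  have hTs : Function.Surjective T := by
    intro y
    refine ⟨dV (Cm d) (c : F → Cm d) x₁ (Ring.inverse (Th θ x₁) y), ?_⟩
    have h1 : dV (Cm d) (e : F → Cm d) x₁ = T.comp (dV (Cm d) (c : F → Cm d) x₁) :=
      dV_eq_chart hxc (he.hol x₁ hx)
    have h2 := DFunLike.congr_fun h1 (Ring.inverse (Th θ x₁) y)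
    rw [he.dif x₁ hx, surj_of_isUnit hunit] at h2
    exact h2.symm
  have hder : ∀ (k : Fin n) (ξ : Cm d),
      fderiv ℂ (fun v => coef x₁ (φ k.succ) v / coef x₁ (φ 0) v) (c x₁) ξ =
      fderiv ℂ (K k) (e x₁) (T ξ) (Pi.single (w k) 1) := by
    intro k ξ
    rw [(hratio k).fderiv_eq]
    have h1 : HasFDerivAt (K k) (fderiv ℂ (K k) (e (c.symm (c x₁)))) (e (c.symm (c x₁))) := by
      rw [c.left_inv hxc, hKη k]
      exact ((he.co_contDiff (hη k) (e.map_source hx)).differentiableAt (by simp)).hasFDerivAt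
    have h2 := (h1.comp (c x₁) hTd).clm_apply (hasFDerivAt_const (Pi.single (w k) (1 : ℂ)) (c x₁))
    have h3 := DFunLike.congr_fun h2.fderiv ξ
    rw [c.left_inv hxc] at h3
    refine h3.trans ?_
    simp
  refine ⟨x₁, φ, ?_, ?_, ?_⟩
  · intro k a
    refine Fin.cases ?_ (fun k => ?_) k
    · rw [hφ0]
      exact isPrim_of (hθ a) (hψ a) (hψe a)
    · rw [hφs]
      by_cases ha : a = w k
      · rw [ha, Function.update_self]
        exact isPrim_of (hη k) (hχ k) (hχe k)
      · rw [Function.update_of_ne ha]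
        exact isPrim_of (hθ a) (hψ a) (hψe a)
  · rw [hcoef0]; exact hdet
  · intro y
    obtain ⟨u, hu⟩ := surj_of_indep hind y
    obtain ⟨ξ, hξ⟩ := hTs u
    refine ⟨ξ, ?_⟩
    funext k
    show fderiv ℂ (fun v => coef x₁ (φ k.succ) v / coef x₁ (φ 0) v) (c x₁) ξ = y k
    rw [hder, hξ, ← hu]
    rfl

end Vale.Agent.P281.H152.U
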