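import Vale.Agent.P281.H152.U.Zero
import Vale.Agent.P281.H152.U.Rank
import Vale.Agent.P281.H64.TU.Spec

/-!
# P281, T-U, block U6 (helper152), part 7: `UenoStmt`.
-/

open Set Filter Metric
open scoped Topology ContDiff Manifold

noncomputable section

namespace Vale.Agent.P281.H152.U

open Vale.Agent.P281 Vale.Agent.P281.MF Vale.Agent.P272.K
open Vale.Agent.P281.H64.TK (IsPrim coef GaussRank)

/-- independent functionals have a kernel of the right dimension -/
theorem finrank_ker_of_indep {d j : ℕ} {ℓ : Fin j → (Cm d →ₗ[ℂ] ℂ)} (h : LinearIndependent ℂ ℓ) :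
    j + Module.finrank ℂ (LinearMap.ker (LinearMap.pi ℓ : Cm d →ₗ[ℂ] (Fin j → ℂ))) = d := by
  have h1 := LinearMap.finrank_range_add_finrank_ker (LinearMap.pi ℓ : Cm d →ₗ[ℂ] (Fin j → ℂ))
  rw [LinearMap.range_eq_top.2 (surj_of_indep h), finrank_top, Module.finrank_fin_fun,
    Module.finrank_fin_fun] at h1
  exact h1

/-- a surjective family of functionals is linearly independent -/
theorem indep_of_surj {E : Type*} [NormedAddCommGroup E] [NormedSpace ℂ E] {j : ℕ}
    {ℓ : Fin j → (E →L[ℂ] ℂ)} (h : Function.Surjective fun (ξ : E) (b : Fin j) => ℓ b ξ) :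
    LinearIndependent ℂ ℓ := by
  rw [Fintype.linearIndependent_iff]
  intro g hg b
  obtain ⟨ξ, hξ⟩ := h (Pi.single b 1)
  have h1 := DFunLike.congr_fun hg ξ
  rw [sum_apply] at h1
  have h2 : ∀ a, (g a • ℓ a) ξ = g a * (Pi.single b (1 : ℂ) : Fin j → ℂ) a := by
    intro a
    rw [smul_apply, smul_eq_mul, ← hξ]
  rw [Finset.sum_congr rfl fun a _ => h2 a] at h1
  simpa [Pi.single_apply] using h1

section
variable {d : ℕ} {F : Type} [TopologicalSpace F] [ChartedSpace (Cm d) F]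
  [IsManifold 𝓘(ℂ, Cm d) ω F] {θ : Fin d → F → (Cm d →L[ℂ] ℂ)}

theorem wdet_ne_of {x : F} (hx : Function.Injective (Th θ x)) : H760.wdet θ x ≠ 0 := by
  refine H760.wdet_ne fun v hv => hx ?_
  rw [map_zero]
  funext a
  exact hv a

/-- the coefficient of a section with respect to a coframe of closed forms is holomorphic -/
theorem holV_section (hθ : ∀ a, IsForm (θ a)) {s : F → ℂ} {m : ℕ} {p : F}
    (hp : Function.Injective (Th θ p)) (hs : ∃ a : F → ℂ, HolV (Cm d) a p ∧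
      ∀ᶠ w in 𝓝 p, s w = a w * jac (Cm d) (chartAt (Cm d) p) w ^ m) :
    HolV (Cm d) (fun w => s w / H760.wdet θ w ^ m) p := by
  obtain ⟨a, ha, hae⟩ := hs
  obtain ⟨c, hc, hce⟩ := H760.wdet_local (x₀ := p) (fun a => hθ a p)
  have hc0 : c p ≠ 0 := by
    intro h0
    apply wdet_ne_of hp
    rw [hce.self_of_nhds, h0, zero_mul]
  refine (ha.div (hc.pow m) (pow_ne_zero _ hc0)).congr ?_
  filter_upwards [hae, hce, (chartAt (Cm d) p).open_source.mem_nhds (mem_chart_source _ p)]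
    with q h1 h2 h4
  have h3 : jac (Cm d) (chartAt (Cm d) p) q ≠ 0 := jac_chart_ne_zero h4
  change s q / H760.wdet θ q ^ m = a q / c q ^ m
  rw [h1, h2, mul_pow, mul_div_mul_right _ _ (pow_ne_zero _ h3)]

/-- coframes exist -/
theorem exists_coframe {x : F} (hgen : ∀ v : Cm d, v ≠ 0 → ∃ η : F → (Cm d →L[ℂ] ℂ),
    IsForm η ∧ η x v ≠ 0) :
    ∃ θ : Fin d → F → (Cm d →L[ℂ] ℂ), (∀ a, IsForm (θ a)) ∧ Function.Injective (Th θ x) := by
  classical
  let ℓ : {η : F → (Cm d →L[ℂ] ℂ) // IsForm η} → (Cm d →ₗ[ℂ] ℂ) := fun η => (η.1 x : Cm d →ₗ[ℂ] ℂ)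
  obtain ⟨κ, a, ha, hspan, hind⟩ := exists_linearIndependent' ℂ ℓ
  have : Finite κ := hind.finite
  have := Fintype.ofFinite κ
  have hinj : ∀ v : Cm d, (∀ k, ℓ (a k) v = 0) → v = 0 := by
    intro v hv
    by_contra hne
    obtain ⟨η, hη, hηv⟩ := hgen v hne
    let S : Submodule ℂ (Cm d →ₗ[ℂ] ℂ) := LinearMap.ker (LinearMap.applyₗ (R := ℂ) (M₂ := ℂ) v)
    have h1 : Submodule.span ℂ (Set.range ℓ) ≤ S := by
      rw [← hspan, Submodule.span_le]
      rintro _ ⟨k, rfl⟩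
      exact hv k
    exact hηv (h1 (Submodule.subset_span ⟨⟨η, hη⟩, rfl⟩))
  -- the cardinality of `κ` is `d`
  let e : Fin (Fintype.card κ) ≃ κ := (Fintype.equivFin κ).symm
  have h2 := finrank_ker_of_indep (hind.comp e e.injective)
  have h3 : LinearMap.ker (LinearMap.pi ((ℓ ∘ a) ∘ e) : Cm d →ₗ[ℂ] (Fin (Fintype.card κ) → ℂ)) =
      ⊥ := by
    rw [LinearMap.ker_eq_bot']
    intro v hv
    refine hinj v fun k => ?_
    have h4 := congrFun hv (e.symm k)
    simpa using h4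
  rw [h3, finrank_bot, add_zero] at h2
  let e' : Fin d ≃ κ := (finCongr h2.symm).trans e
  refine ⟨fun k => (a (e' k)).1, fun k => (a (e' k)).2, ?_⟩
  rw [injective_iff_map_eq_zero]
  intro v hv
  refine hinj v fun k => ?_
  have h4 := congrFun hv (e'.symm k)
  rw [Th_apply] at h4
  simp only [e'.apply_symm_apply] at h4
  exact h4

end

end Vale.Agent.P281.H152.U
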