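import Vale.Agent.P281.H152.U.Main

/-!
# P281, T-U, block U6 (helper152), part 8: `UenoStmt`.
-/

open Set Filter Metric
open scoped Topology ContDiff Manifold

noncomputable section

namespace Vale.Agent.P281.H152.U

open Vale.Agent.P281 Vale.Agent.P281.MF Vale.Agent.P272.K
open Vale.Agent.P281.H64.TK (IsPrim coef GaussRank)

section
variable {d : ℕ} {F : Type} [TopologicalSpace F] [ChartedSpace (Cm d) F]
  [IsManifold 𝓘(ℂ, Cm d) ω F]

/-- Meromorphic functions `g_1, …, g_j`, which are ratios of functions holomorphic near the level sets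
of the Gauss map, independent at `z`: then the Gauss map has rank at least `j` somewhere. -/
theorem rank_ge [CompactSpace F] (hgen : ∀ (x : F) (v : Cm d), v ≠ 0 →
    ∃ η : F → (Cm d →L[ℂ] ℂ), IsForm η ∧ η x v ≠ 0) {j m : ℕ} {s : ℕ → F → ℂ}
    (hs : ∀ b p, ∃ a : F → ℂ, HolV (Cm d) a p ∧
      ∀ᶠ w in 𝓝 p, s b w = a w * jac (Cm d) (chartAt (Cm d) p) w ^ m) {z : F}
    (hs0 : s 0 z ≠ 0) (hsurj : Function.Surjective fun (ξ : Cm d) (b : Fin j) =>
      J.dif (Cm d) (fun w => s (b + 1) w / s 0 w) z ξ) : GaussRank d F j := by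
  obtain ⟨θ, hθ, hz⟩ := exists_coframe (hgen z)
  obtain ⟨e, hze, he⟩ := exists_flat hθ hz
  -- the functions `H b`
  let H : ℕ → F → ℂ := fun b p => s b p / H760.wdet θ p ^ m
  have hH : ∀ b p, Function.Injective (Th θ p) → HolV (Cm d) (H b) p := fun b p hp =>
    holV_section hθ hp (hs b p)
  have hinj : ∀ p ∈ e.source, Function.Injective (Th θ p) := by
    intro p hp a b hab
    rw [← inj_of_isUnit (he.isUnit hp) a, hab, inj_of_isUnit (he.isUnit hp)]
  have hH0 : H 0 z ≠ 0 := div_ne_zero hs0 (pow_ne_zero _ (wdet_ne_of hz))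
  have hratio : ∀ b : ℕ, ∀ p ∈ e.source, s (b + 1) p / s 0 p = H (b + 1) p / H 0 p := by
    intro b p hp
    change _ = (s (b + 1) p / H760.wdet θ p ^ m) / (s 0 p / H760.wdet θ p ^ m)
    rw [div_div_div_cancel_right₀ (pow_ne_zero _ (wdet_ne_of (hinj p hp)))]
  -- in the flat chart
  let h : ℕ → Cm d → ℂ := fun b y => H b (e.symm y)
  have hh : ∀ b, ∀ y ∈ e.target, ContDiffAt ℂ ω (h b) y := by
    intro b y hy
    have h1 := he.rep_contDiff (e.map_target hy) (hH b _ (hinj _ (e.map_target hy)))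
    rw [e.right_inv hy] at h1
    exact h1
  let g : Fin j → Cm d → ℂ := fun b y => h (b + 1) y / h 0 y
  have hez : e z ∈ e.target := e.map_source hze
  have hh0 : h 0 (e z) ≠ 0 := by
    show H 0 (e.symm (e z)) ≠ 0
    rw [e.left_inv hze]; exact hH0
  have hg : ∀ b, ∀ y ∈ e.target, h 0 y ≠ 0 → ContDiffAt ℂ ω (g b) y := fun b y hy h0 =>
    (hh _ y hy).div (hh 0 y hy) h0
  -- independence at `e z`
  have hindz : LinearIndependent ℂ (fun b : Fin j => fderiv ℂ (g b) (e z)) := by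
    refine indep_of_surj ?_
    intro y
    obtain ⟨ξ, hξ⟩ := hsurj y
    refine ⟨Th θ z ξ, ?_⟩
    rw [← hξ]
    funext b
    have h1 : (fun w => s (b + 1) w / s 0 w) =ᶠ[𝓝 z] fun w => H (b + 1) w / H 0 w := by
      filter_upwards [e.open_source.mem_nhds hze] with w hw
      exact hratio b w hw
    have h2 : HolV (Cm d) (fun w => H (b + 1) w / H 0 w) z := (hH _ z hz).div (hH 0 z hz) hH0
    have h3 : J.dif (Cm d) (fun w => s (b + 1) w / s 0 w) z =
        dV (Cm d) (fun w => H (b + 1) w / H 0 w) z := by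
      unfold J.dif dV
      rw [h1.mfderiv_eq]
    show _ = J.dif (Cm d) (fun w => s (b + 1) w / s 0 w) z ξ
    rw [h3, he.rep hze h2]
    rfl
  have hev : ∀ᶠ y in 𝓝 (e z), y ∈ e.target ∧ h 0 y ≠ 0 ∧
      LinearIndependent ℂ (fun b : Fin j => fderiv ℂ (g b) y) := by
    refine (e.open_target.eventually_mem hez).and
      (((hh 0 _ hez).continuousAt.eventually_ne hh0).and ?_)
    have h1 : ContinuousAt (fun y => fun b : Fin j => fderiv ℂ (g b) y) (e z) :=
      continuousAt_pi.2 fun b =>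
        ((hg b _ hez hh0).fderiv_right (m := ω) (by simp)).continuousAt
    exact h1.eventually hindz.eventually
  obtain ⟨r, hr, hball⟩ := Metric.eventually_nhds_iff_ball.1 hev
  -- a point of the smallest kernel
  obtain ⟨y₁, hy₁, hmin⟩ : ∃ y₁ ∈ ball (e z) r, ∀ y ∈ ball (e z) r,
      Module.finrank ℂ (N (FF θ e) y₁) ≤ Module.finrank ℂ (N (FF θ e) y) := by
    let S : Set ℕ := (fun y => Module.finrank ℂ (N (FF θ e) y)) '' ball (e z) r
    have hS : S.Nonempty := ⟨_, e z, mem_ball_self hr, rfl⟩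
    obtain ⟨y₁, h1, h2⟩ := Nat.sInf_mem hS
    refine ⟨y₁, h1, fun y hy => ?_⟩
    have h3 : Module.finrank ℂ (N (FF θ e) y₁) = sInf S := h2
    rw [h3]
    exact Nat.sInf_le ⟨y, hy, rfl⟩
  obtain ⟨hyt, hy0, hyind⟩ := hball y₁ hy₁
  set x₁ := e.symm y₁ with hx₁
  have hx₁e : x₁ ∈ e.source := e.map_target hyt
  have hex₁ : e x₁ = y₁ := e.right_inv hyt
  -- the kernel of the Gauss map is in the kernel of the functions `g`
  have key : ∀ u ∈ N (FF θ e) y₁, ∀ b, fderiv ℂ (g b) y₁ u = 0 := by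
    intro u hu b
    obtain ⟨ε, hε, hleaf⟩ := leaf (ℱ := FF θ e) (B := ball (e z) r) isOpen_ball hy₁
      (by
        rintro K ⟨η, hη, rfl⟩ y hy
        exact he.co_contDiff hη (hball y hy).1)
      (by
        rintro K ⟨η, hη, rfl⟩ y hy u w
        exact he.co_symm hη (hball y hy).1 u w)
      hmin hu
    have hLin : x₁ ∈ Lin θ x₁ u := by
      refine ⟨e, he, hx₁e, ?_⟩
      rw [hex₁]
      filter_upwards [ball_mem_nhds (0 : ℂ) hε] with τ hτ
      have hb : ∀ σ ∈ ball (0 : ℂ) ε, y₁ + σ • u ∈ e.target := fun σ hσ =>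
        (hball _ (hleaf σ (mem_ball_zero_iff.1 hσ)).1).1
      rw [Lev_iff he (e.map_target (hb τ hτ))]
      intro η hη
      have h1 : ∀ σ ∈ ball (0 : ℂ) ε, HasDerivAt (fun σ : ℂ => co θ η (e.symm (y₁ + σ • u))) 0
          σ := by
        intro σ hσ
        have h2 := ((he.co_contDiff hη (hb σ hσ)).differentiableAt (by simp)).hasFDerivAt
        have h3 : HasDerivAt (fun σ : ℂ => y₁ + σ • u) u σ := by
          have := ((hasDerivAt_id σ).smul_const u).const_add y₁
          rw [one_smul] at this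
          exact this
        have h4 := h2.comp_hasDerivAt σ h3
        have h5 := (hleaf σ (mem_ball_zero_iff.1 hσ)).2 (fun y => co θ η (e.symm y)) ⟨η, hη, rfl⟩
        rw [h5] at h4
        exact h4
      have h6 : co θ η (e.symm (y₁ + τ • u)) = co θ η (e.symm (y₁ + (0 : ℂ) • u)) := by
        refine (convex_ball (0 : ℂ) ε).is_const_of_fderivWithin_eq_zero (𝕜 := ℂ)
          (f := fun σ : ℂ => co θ η (e.symm (y₁ + σ • u))) ?_ ?_ hτ (mem_ball_self hε)
        · exact fun σ hσ => (h1 σ hσ).differentiableAt.differentiableWithinAt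
        · intro σ hσ
          rw [fderivWithin_of_isOpen isOpen_ball hσ, (h1 σ hσ).hasFDerivAt.fderiv]
          ext
          simp
      rw [h6, zero_smul, add_zero]
    have hDz : ∀ b, fderiv ℂ (h b) y₁ u = 0 := by
      intro b
      have h1 := D_zero hθ hgen x₁ u (G := H b)
        (fun x hx => hH b x (Lev_inj (hgen x) hx)) x₁ hLin
      rw [he.D_eq hx₁e (hH b x₁ (hinj x₁ hx₁e)), hex₁] at h1
      exact h1
    have hl : HasDerivAt (fun σ : ℂ => y₁ + σ • u) u 0 := by
      have := ((hasDerivAt_id (0 : ℂ)).smul_const u).const_add y₁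
      rw [one_smul] at this
      exact this
    have hy : y₁ = y₁ + (0 : ℂ) • u := by rw [zero_smul, add_zero]
    have a1 : ∀ b, HasDerivAt (fun σ : ℂ => h b (y₁ + σ • u)) 0 0 := by
      intro b
      have h2 := ((hh b y₁ hyt).differentiableAt (by simp)).hasFDerivAt
      have h3 := h2.comp_hasDerivAt_of_eq (0 : ℂ) hl hy
      rw [hDz b] at h3
      exact h3
    have a2 := (a1 (b + 1)).div (a1 0) (by rw [← hy]; exact hy0)
    have a3 := ((hg b y₁ hyt hy0).differentiableAt (by simp)).hasFDerivAt.comp_hasDerivAt_of_eq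
      (0 : ℂ) hl hy
    refine (a3.unique a2).trans ?_
    simp
  -- the dimension count
  obtain ⟨n, K, w, hK, hind, hker⟩ := exists_family (FF θ e) y₁
    (fun a : Fin d => (Pi.single a (1 : ℂ) : Cm d)) (fun T hT => by
      ext1 v
      rw [H760.clm_sum]
      simp [hT])
  have hGR : GaussRank d F n := by
    refine gaussRank_of (w := w) hθ he hx₁e hK ?_
    rw [hex₁]; exact hind
  refine GaussRank_mono ?_ hGR
  have h1 := finrank_ker_of_indep hind
  have hyind' : LinearIndependent ℂ (fun b : Fin j => (fderiv ℂ (g b) y₁ : Cm d →ₗ[ℂ] ℂ)) :=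
    hyind.map' (ContinuousLinearMap.coeLM ℂ) (LinearMap.ker_eq_bot.2
      ContinuousLinearMap.coe_injective)
  have h2 := finrank_ker_of_indep hyind'
  have h3 : LinearMap.ker (LinearMap.pi (fun k => fl (K k) (Pi.single (w k) (1 : ℂ) : Cm d) y₁) :
      Cm d →ₗ[ℂ] (Fin n → ℂ)) ≤
      LinearMap.ker (LinearMap.pi (fun b : Fin j => (fderiv ℂ (g b) y₁ : Cm d →ₗ[ℂ] ℂ)) :
      Cm d →ₗ[ℂ] (Fin j → ℂ)) := by
    intro v hv
    have h4 : v ∈ N (FF θ e) y₁ := hker v fun k => congrFun hv k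
    rw [LinearMap.mem_ker]
    funext b
    exact key v h4 b
  have h5 := Submodule.finrank_mono h3
  omega

end

/-- **U6** -/
theorem ueno : H64.TU.UenoStmt := by
  intro n d r X F _ _ _ _ _ _ _ _ i Δ hd hi hgen hrk hΔ
  have hi' : ∀ p, HolM (Cm d) (Cm n) i p := fun p => hi.contMDiffAt
  unfold H713.TZ.S.kodR J.kod
  refine iSup₂_le ?_
  rintro j ⟨m, k, s, z, hm, hk, hs, -, hs0, hsurj⟩
  have hΔk : ∀ D, k D ≠ 0 → Δ D ≠ 0 := by
    intro D hD h0
    have := hk D
    rw [h0, mul_zero] at this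
    exact hD (by exact_mod_cast this)
  have hne : ∀ D, k D ≠ 0 → ∀ p (g : F → ℂ), (∃ e, J.IsLocalEq (Cm n) D e (i p) ∧
      ∀ᶠ q in 𝓝 p, g q = e (i q)) → HolV (Cm d) g p ∧ g p ≠ 0 := by
    rintro D hD p g ⟨e, he, hge⟩
    have heh : HolV (Cm n) e (i p) := IsLocalEq.holAt he
    refine ⟨(HolV.comp heh (hi' p)).congr hge, ?_⟩
    rw [hge.self_of_nhds]
    obtain ⟨W, hW, hzW, -, hWD, -⟩ := he
    intro h0
    exact hΔ D (hΔk D hD) p ((hWD _ hzW).2 h0)
  have hloc : ∀ b p, ∃ a : F → ℂ, HolV (Cm d) a p ∧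
      ∀ᶠ w in 𝓝 p, s b w = a w * jac (Cm d) (chartAt (Cm d) p) w ^ m :=
    fun b p => MF.section_local (E₀ := Cm d) (eqn := fun (D : Set X) p g =>
      ∃ e, J.IsLocalEq (Cm n) D e (i p) ∧ ∀ᶠ q in 𝓝 p, g q = e (i q)) (hs b) hne p
  have h1 : GaussRank d F j := rank_ge hgen hloc hs0 hsurj
  have h2 : j ≤ r := by
    by_contra hcon
    exact hrk (GaussRank_mono (by omega) h1)
  exact_mod_cast h2

end Vale.Agent.P281.H152.U
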