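import Vale.Agent.P281.H152.U.Germ

/-!
# P281, T-U, block U6 (helper152), part 5: holomorphic functions near a level set of the Gauss map are
constant along the flat lines.
-/

open Set Filter Metric
open scoped Topology ContDiff Manifold

noncomputable section

namespace Vale.Agent.P281.H152.U

open Vale.Agent.P281 Vale.Agent.P281.MF Vale.Agent.P272.K

variable {d : ℕ} {F : Type} [TopologicalSpace F] [ChartedSpace (Cm d) F]
  [IsManifold 𝓘(ℂ, Cm d) ω F] {θ : Fin d → F → (Cm d →L[ℂ] ℂ)}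

theorem D_zero [CompactSpace F] (hθ : ∀ a, IsForm (θ a)) (hgen : ∀ (x : F) (v : Cm d), v ≠ 0 →
    ∃ η : F → (Cm d →L[ℂ] ℂ), IsForm η ∧ η x v ≠ 0) (x₁ : F) (u : Cm d) {G : F → ℂ}
    (hG : ∀ x ∈ Lev θ x₁, HolV (Cm d) G x) : ∀ x ∈ Lin θ x₁ u, D θ u G x = 0 := by
  classical
  set Z : Set F := Lin θ x₁ u with hZ
  have hZc : IsCompact Z := (isClosed_Lin hθ hgen x₁ u).isCompact
  have hZL : Z ⊆ Lev θ x₁ := Lin_sub
  -- the flat charts
  choose e δ hδ he hxe hball using fun x : Lev θ x₁ => exists_ball hθ (Lev_inj (hgen x.1) x.2)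
  let W : Lev θ x₁ → Set F := fun x => (e x).source ∩ (e x) ⁻¹' ball (e x x.1) (δ x)
  have hWo : ∀ x, IsOpen (W x) := fun x => (e x).isOpen_inter_preimage isOpen_ball
  have hxW : ∀ x : Lev θ x₁, x.1 ∈ W x := fun x => ⟨hxe x, mem_ball_self (hδ x)⟩
  obtain ⟨t, ht⟩ := hZc.elim_nhds_subcover' (fun x hx => W ⟨x, hZL hx⟩)
    fun x hx => (hWo _).mem_nhds (hxW ⟨x, hZL hx⟩)
  -- the radius
  have hrad : ∀ᶠ ε in 𝓝[>] (0 : ℝ), ∀ x ∈ t, ε * (‖u‖ + 1) < δ ⟨x.1, hZL x.2⟩ := by
    rw [Filter.eventually_all_finset]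
    intro x _
    have h1 : Tendsto (fun ε : ℝ => ε * (‖u‖ + 1)) (𝓝 0) (𝓝 0) := by
      have : Continuous fun ε : ℝ => ε * (‖u‖ + 1) := by fun_prop
      have h := this.tendsto 0
      rwa [zero_mul] at h
    exact (h1.eventually (gt_mem_nhds (hδ _))).filter_mono nhdsWithin_le_nhds
  obtain ⟨ε, hεt, hε⟩ := (hrad.and self_mem_nhdsWithin).exists
  have hε0 : 0 < ε := hε
  -- the choice of the chart
  have hch : ∀ z ∈ Z, ∃ x : Lev θ x₁, z ∈ W x ∧ ε * (‖u‖ + 1) ≤ δ x := by
    intro z hz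
    have h1 := ht hz
    simp only [mem_iUnion] at h1
    obtain ⟨x, hx, h2⟩ := h1
    exact ⟨_, h2, (hεt x hx).le⟩
  let Fl : F → ℂ → F := fun z τ => if h : z ∈ Z then
    (e (hch z h).choose).symm (e (hch z h).choose z + τ • u) else z
  have hFl : ∀ z ∈ Z, ∃ x : Lev θ x₁, z ∈ (e x).source ∧
      (∀ τ ∈ ball (0 : ℂ) ε, e x z + τ • u ∈ (e x).target) ∧
      ∀ τ, Fl z τ = (e x).symm (e x z + τ • u) := by
    intro z hz
    have h1 := (hch z hz).choose_spec
    refine ⟨(hch z hz).choose, h1.1.1, fun τ hτ => hball _ (ball_line h1.1.2 h1.2 hτ), ?_⟩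
    intro τ
    simp only [Fl, dif_pos hz]
  have hDrep : ∀ z ∈ Z, ∀ x : Lev θ x₁, z ∈ (e x).source →
      D θ u G z = fderiv ℂ (fun y => G ((e x).symm y)) (e x z) u := fun z hz x hx =>
    (he x).D_eq hx (hG z (hZL hz)) u
  refine flow_const hZc hε0 Fl ?_ ?_ G (D θ u G) ?_ ?_ ?_ ?_
  · intro z hz
    obtain ⟨x, h1, -, h3⟩ := hFl z hz
    rw [h3, zero_smul, add_zero, (e x).left_inv h1]
  · intro z hz τ hτ
    obtain ⟨x, h1, h2, h3⟩ := hFl z hz
    rw [h3]
    exact disc_Lin hz (he x) h1 hε0 h2 τ hτ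
  · exact fun z hz => (hG z (hZL hz)).continuousAt.continuousWithinAt
  · intro z hz
    obtain ⟨x, h1, -, -⟩ := hFl z hz
    have h4 := (he x).rep_contDiff h1 (hG z (hZL hz))
    have h5 : ContinuousAt (fun y => fderiv ℂ (fun y => G ((e x).symm y)) y u) (e x z) :=
      (h4.fderiv_right (m := ω) (by simp)).continuousAt.clm_apply continuousAt_const
    have h6 : ContinuousAt (fun w => fderiv ℂ (fun y => G ((e x).symm y)) (e x w) u) z :=
      ContinuousAt.comp (g := fun y => fderiv ℂ (fun y => G ((e x).symm y)) y u) h5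
        ((e x).continuousAt h1)
    refine h6.continuousWithinAt.congr_of_eventuallyEq ?_ (hDrep z hz x h1)
    filter_upwards [self_mem_nhdsWithin, mem_nhdsWithin_of_mem_nhds
      ((e x).open_source.mem_nhds h1)] with w h7 h8
    exact hDrep w h7 x h8
  · intro z hz τ hτ
    obtain ⟨x, h1, h2, h3⟩ := hFl z hz
    have h4 := disc_Lin hz (he x) h1 hε0 h2 τ hτ
    have h5 := (e x).map_target (h2 τ hτ)
    have h6 := (he x).rep_contDiff h5 (hG _ (hZL h4))
    have h7 := hDrep _ h4 x h5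
    rw [(e x).right_inv (h2 τ hτ)] at h6 h7
    rw [h3, h7]
    have h8 : HasDerivAt (fun σ : ℂ => e x z + σ • u) u τ := by
      have := ((hasDerivAt_id τ).smul_const u).const_add (e x z)
      rw [one_smul] at this
      exact this
    have h9 := (h6.differentiableAt (by simp)).hasFDerivAt.comp_hasDerivAt τ h8
    have h10 : (fun s => G (Fl z s)) = (fun y => G ((e x).symm y)) ∘ fun σ : ℂ => e x z + σ • u := by
      funext s
      simp only [Function.comp_apply, h3]
    rw [h10]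
    exact h9
  · intro z hz
    obtain ⟨x, h1, h2, h3⟩ := hFl z hz
    have h11 : DifferentiableOn ℂ (fun τ : ℂ =>
        fderiv ℂ (fun y => G ((e x).symm y)) (e x z + τ • u) u) (ball 0 ε) := by
      intro τ hτ
      have h4 := disc_Lin hz (he x) h1 hε0 h2 τ hτ
      have h5 := (e x).map_target (h2 τ hτ)
      have h6 := (he x).rep_contDiff h5 (hG _ (hZL h4))
      rw [(e x).right_inv (h2 τ hτ)] at h6
      have h7 := (h6.fderiv_right (m := ω) (by simp)).differentiableAt (by simp)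
      have h8 : DifferentiableAt ℂ (fun σ : ℂ => e x z + σ • u) τ := by fun_prop
      have h9 : DifferentiableAt ℂ (fun τ : ℂ =>
          fderiv ℂ (fun y => G ((e x).symm y)) (e x z + τ • u)) τ :=
        DifferentiableAt.comp (g := fderiv ℂ (fun y => G ((e x).symm y)))
          (f := fun σ : ℂ => e x z + σ • u) τ h7 h8
      exact (h9.clm_apply (differentiableAt_const u)).differentiableWithinAt
    refine h11.congr fun τ hτ => ?_
    have h4 := disc_Lin hz (he x) h1 hε0 h2 τ hτ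
    have h5 := (e x).map_target (h2 τ hτ)
    have h7 := hDrep _ h4 x h5
    rw [(e x).right_inv (h2 τ hτ)] at h7
    rw [h3, h7]

end Vale.Agent.P281.H152.U
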